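import Vale.Agent.Lib.Helper9.BinPackCert

/-!
A second certificate checker for lower bounds on `opt a - lpValue a`, for instances in which
every item is larger than a quarter of the capacity.

In such an instance a bin holds at most three items, so a packing of `n` items into `k` bins
contains at least `n - 2 * k` bins with exactly three items. Replacing items by smaller ones, the
`3 * (n - 2 * k)` smallest items can then be split into triples that each fit into a bin.
`split` is a complete search for such a splitting.
-/

namespace Vale.Agent.Lib.Helper9.BinPack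

/-! ### Splitting a list of sizes into triples -/

/-- `l` can be split into triples, each of total size at most `L`. -/
def PerfSplit (L : ℕ) (l : List ℕ) : Prop :=
  ∃ T : List (List ℕ), (∀ t ∈ T, t.length = 3 ∧ t.sum ≤ L) ∧ T.flatten.Perm l

theorem PerfSplit.perm {L : ℕ} {l l' : List ℕ} (h : PerfSplit L l) (hp : l.Perm l') :
    PerfSplit L l' := by
  obtain ⟨T, hT, hperm⟩ := h
  exact ⟨T, hT, hperm.trans hp⟩

/-- The first element of the list that is at most `c`, together with the other elements. -/
def pickLe (c : ℕ) : List ℕ → Option (ℕ × List ℕ)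
  | [] => none
  | z :: zs =>
    if z ≤ c then some (z, zs)
    else
      match pickLe c zs with
      | none => none
      | some mr => some (mr.1, z :: mr.2)

theorem pickLe_some {c : ℕ} : ∀ {l : List ℕ} {mr : ℕ × List ℕ}, pickLe c l = some mr →
    ∃ p s, l = p ++ mr.1 :: s ∧ mr.2 = p ++ s ∧ (∀ e ∈ p, c < e) ∧ mr.1 ≤ c
  | [], mr, h => by simp [pickLe] at h
  | z :: zs, mr, h => by
    unfold pickLe at h
    by_cases hz : z ≤ c
    · rw [if_pos hz, Option.some.injEq] at h
      subst h
      exact ⟨[], zs, rfl, rfl, by simp, hz⟩
    · rw [if_neg hz] at h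
      cases hrec : pickLe c zs with
      | none => rw [hrec] at h; simp at h
      | some mr' =>
        rw [hrec] at h
        simp only [Option.some.injEq] at h
        subst h
        obtain ⟨p, s, h1, h2, h3, h4⟩ := pickLe_some hrec
        refine ⟨z :: p, s, by rw [h1]; rfl, by simp only [h2]; rfl, ?_, h4⟩
        intro e he
        rcases List.mem_cons.1 he with rfl | he
        · omega
        · exact h3 e he

theorem pickLe_ne_none {c : ℕ} : ∀ {l : List ℕ} {z : ℕ}, z ∈ l → z ≤ c → pickLe c l ≠ none
  | [], z, h, _ => by simp at h
  | y :: ys, z, h, hz => by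
    unfold pickLe
    by_cases hy : y ≤ c
    · rw [if_pos hy]; simp
    · rw [if_neg hy]
      rcases List.mem_cons.1 h with rfl | h'
      · exact absurd hz hy
      · have := pickLe_ne_none h' hz
        cases hrec : pickLe c ys with
        | none => exact absurd hrec this
        | some mr => simp

/-- The minimum of `a` and the elements of the list. -/
def minL : ℕ → List ℕ → ℕ
  | a, [] => a
  | a, z :: zs => minL (min a z) zs

theorem minL_le : ∀ (l : List ℕ) (a : ℕ), minL a l ≤ a ∧ ∀ e ∈ l, minL a l ≤ e
  | [], a => ⟨le_refl a, by simp⟩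
  | z :: zs, a => by
    obtain ⟨h1, h2⟩ := minL_le zs (min a z)
    refine ⟨le_trans h1 (min_le_left _ _), ?_⟩
    intro e he
    rcases List.mem_cons.1 he with rfl | he
    · exact le_trans h1 (min_le_right _ _)
    · exact h2 e he

/-- The list is empty or its head differs from `y`. -/
def headNe : List ℕ → ℕ → Bool
  | [], _ => true
  | p :: _, y => p != y

theorem headNe_of_not_mem {y : ℕ} : ∀ {l : List ℕ}, y ∉ l → headNe l y = true
  | [], _ => rfl
  | p :: _, h => by
    simp only [headNe, bne_iff_ne, ne_eq]
    intro h'
    exact h (h' ▸ List.mem_cons_self)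

/-- One branch of the search: the head `x` is put into a triple with `y` and with the first
element of `suf` that still fits; `pre` holds the elements before `y` in reverse order. The
branch is skipped if `y` repeats the element before it or if no element fits. -/
def tryOne (L x zmin : ℕ) (rec : List ℕ → Bool) (pre : List ℕ) (y : ℕ) (suf : List ℕ) : Bool :=
  headNe pre y &&
  decide (x + y + zmin ≤ L) &&
  (match pickLe (L - x - y) suf with
    | none => false
    | some mr => rec (pre.reverseAux mr.2))

/-- All branches of the search for the head `x`. -/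
def tryY (L x zmin : ℕ) (rec : List ℕ → Bool) : List ℕ → List ℕ → Bool
  | _, [] => false
  | pre, y :: suf => tryOne L x zmin rec pre y suf || tryY L x zmin rec (y :: pre) suf

/-- Complete search for a splitting of a decreasing list into triples of total size at most `L`;
`fuel` is the number of triples. The head of the list is put into a triple with an element `y`
of the tail and the largest later element that still fits. -/
def split (L : ℕ) : ℕ → List ℕ → Bool
  | 0, _ => true
  | _ + 1, [] => true
  | fuel + 1, x :: tail =>
    decide ((x :: tail).sum ≤ (fuel + 1) * L) &&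
      tryY L x (minL x tail) (split L fuel) [] tail

theorem tryY_of_tryOne {L x zmin : ℕ} {rec : List ℕ → Bool} {y : ℕ} {s : List ℕ} :
    ∀ (p pre : List ℕ), tryOne L x zmin rec (p.reverse ++ pre) y s = true →
      tryY L x zmin rec pre (p ++ y :: s) = true
  | [], pre, h => by
    simp only [List.reverse_nil, List.nil_append] at h
    simp [tryY, h]
  | a :: p, pre, h => by
    have h' : tryOne L x zmin rec (p.reverse ++ a :: pre) y s = true := by
      simpa using h
    have := tryY_of_tryOne p (a :: pre) h'
    simp [tryY, this]

theorem perfSplit_exchange {L z m : ℕ} {R : List ℕ} (h : PerfSplit L R) (hm : m ∈ R)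
    (hz : z ≤ m) : PerfSplit L (z :: R.erase m) := by
  obtain ⟨T, hT, hperm⟩ := h
  have hm' : m ∈ T.flatten := hperm.symm.subset hm
  obtain ⟨t2, ht2, hmt2⟩ := List.mem_flatten.1 hm'
  refine ⟨(z :: t2.erase m) :: T.erase t2, ?_, ?_⟩
  · intro t ht
    rcases List.mem_cons.1 ht with rfl | ht
    · constructor
      · rw [List.length_cons, List.length_erase_of_mem hmt2, (hT t2 ht2).1]
      · have h1 : m + (t2.erase m).sum = t2.sum := List.sum_erase hmt2
        have h2 := (hT t2 ht2).2
        rw [List.sum_cons]
        omega
    · exact hT t (List.mem_of_mem_erase ht)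
  · have h1 : T.flatten.Perm (t2 ++ (T.erase t2).flatten) := by
      have := (List.perm_cons_erase ht2).flatten
      simpa using this
    have h2 : R.Perm (m :: (t2.erase m ++ (T.erase t2).flatten)) := by
      refine hperm.symm.trans (h1.trans ?_)
      have := (List.perm_cons_erase hmt2).append_right (T.erase t2).flatten
      simpa using this
    have h3 := h2.erase m
    rw [List.erase_cons_head] at h3
    simp only [List.flatten_cons, List.cons_append]
    exact (h3.cons z).symm

theorem perfSplit_cons {L x : ℕ} {tail : List ℕ} (h : PerfSplit L (x :: tail)) :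
    ∃ y z R, z ≤ y ∧ x + y + z ≤ L ∧ tail.Perm (y :: z :: R) ∧ PerfSplit L R := by
  obtain ⟨T, hT, hperm⟩ := h
  have hx : x ∈ T.flatten := hperm.symm.subset List.mem_cons_self
  obtain ⟨t, ht, hxt⟩ := List.mem_flatten.1 hx
  have hlen : (t.erase x).length = 2 := by
    rw [List.length_erase_of_mem hxt, (hT t ht).1]
  obtain ⟨p, q, hpq⟩ := List.length_eq_two.1 hlen
  have htp : t.Perm (x :: [p, q]) := by
    rw [← hpq]; exact List.perm_cons_erase hxt
  have hsum : x + p + q ≤ L := by
    have := (hT t ht).2
    rw [htp.sum_eq] at this
    simp only [List.sum_cons, List.sum_nil] at this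
    omega
  have h1 : T.flatten.Perm (t ++ (T.erase t).flatten) := by
    have := (List.perm_cons_erase ht).flatten
    simpa using this
  have h2 : (x :: tail).Perm (x :: p :: q :: (T.erase t).flatten) := by
    refine hperm.symm.trans (h1.trans ?_)
    have := htp.append_right (T.erase t).flatten
    simpa using this
  have h3 : tail.Perm (p :: q :: (T.erase t).flatten) := h2.cons_inv
  have hR : PerfSplit L (T.erase t).flatten :=
    ⟨T.erase t, fun t' ht' => hT t' (List.mem_of_mem_erase ht'), List.Perm.refl _⟩
  rcases le_total p q with hle | hle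
  · exact ⟨q, p, _, hle, by omega, h3.trans (List.Perm.swap _ _ _), hR⟩
  · exact ⟨p, q, _, hle, by omega, h3, hR⟩

theorem sum_flatten_le {L : ℕ} : ∀ (T : List (List ℕ)), (∀ t ∈ T, t.length = 3 ∧ t.sum ≤ L) →
    T.flatten.sum ≤ T.length * L ∧ T.flatten.length = 3 * T.length
  | [], _ => by simp
  | t :: T₁, h => by
    obtain ⟨ih1, ih2⟩ := sum_flatten_le T₁ fun t' ht' => h t' (List.mem_cons_of_mem _ ht')
    obtain ⟨h1, h2⟩ := h t List.mem_cons_self
    rw [List.flatten_cons, List.sum_append, List.length_append, List.length_cons, ih2, h1]
    constructor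
    · have : (T₁.length + 1) * L = T₁.length * L + L := by ring
      omega
    · omega

theorem split_of_perfSplit (L : ℕ) : ∀ (fuel : ℕ) (l : List ℕ), l.Pairwise (· ≥ ·) →
    l.length ≤ 3 * fuel → PerfSplit L l → split L fuel l = true
  | 0, _, _, _, _ => by simp [split]
  | _ + 1, [], _, _, _ => by simp [split]
  | fuel + 1, x :: tail, hsorted, hlen, h => by
    -- the sum test
    have hsumtest : (x :: tail).sum ≤ (fuel + 1) * L := by
      obtain ⟨T, hT, hperm⟩ := h
      obtain ⟨h1, h2⟩ := sum_flatten_le T hT
      rw [hperm.sum_eq] at h1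
      rw [hperm.length_eq] at h2
      have h3 : T.length ≤ fuel + 1 := by omega
      exact le_trans h1 (Nat.mul_le_mul_right L h3)
    obtain ⟨y, z, R, hzy, hsum, hperm, hR⟩ := perfSplit_cons h
    have hy : y ∈ tail := hperm.symm.subset List.mem_cons_self
    have hztail : z ∈ tail := hperm.symm.subset (by simp)
    obtain ⟨p, s, htail, hyp⟩ := List.eq_append_cons_of_mem hy
    have hsorted' : tail.Pairwise (· ≥ ·) := (List.pairwise_cons.1 hsorted).2
    rw [htail, List.pairwise_append] at hsorted'
    obtain ⟨_, hs_sorted, hps⟩ := hsorted'
    -- the elements of `p` are larger than `y`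
    have hpgt : ∀ e ∈ p, y < e := by
      intro e he
      have h1 : e ≥ y := hps e he y List.mem_cons_self
      have h2 : e ≠ y := fun h' => hyp (h' ▸ he)
      omega
    have hps_perm : (p ++ s).Perm (z :: R) := by
      have h1 : (y :: (p ++ s)).Perm (y :: z :: R) := by
        rw [htail] at hperm
        exact List.perm_middle.symm.trans hperm
      exact h1.cons_inv
    have hzs : z ∈ s := by
      have h1 : z ∈ p ++ s := hps_perm.symm.subset List.mem_cons_self
      rcases List.mem_append.1 h1 with h' | h'
      · have := hpgt z h'; omega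
      · exact h'
    have hzc : z ≤ L - x - y := by omega
    cases hpick : pickLe (L - x - y) s with
    | none => exact absurd hpick (pickLe_ne_none hzs hzc)
    | some mr =>
      obtain ⟨p2, s2, hs, hmr2, hp2, hmc⟩ := pickLe_some hpick
      have hs_sorted' := hs_sorted
      rw [hs] at hs_sorted'
      have hzm : z ≤ mr.1 := by
        rw [hs] at hzs
        rcases List.mem_append.1 hzs with h' | h'
        · have := hp2 z h'; omega
        · rcases List.mem_cons.1 h' with h'' | h''
          · omega
          · have h2 := (List.pairwise_append.1 (List.pairwise_cons.1 hs_sorted').2).2.1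
            exact (List.pairwise_cons.1 h2).1 z h''
      -- the remaining list
      have hchild_perm : (p ++ mr.2).Perm ((z :: R).erase mr.1) := by
        have h1 : (p ++ s).Perm (mr.1 :: (p ++ mr.2)) := by
          rw [hs, hmr2]
          have : (p ++ (p2 ++ mr.1 :: s2)) = (p ++ p2) ++ mr.1 :: s2 := by simp
          rw [this]
          have h2 : (p ++ (p2 ++ s2)) = (p ++ p2) ++ s2 := by simp
          rw [h2]
          exact List.perm_middle
        have h3 := (h1.symm.trans hps_perm).erase mr.1
        rwa [List.erase_cons_head] at h3
      have hchild : PerfSplit L (p ++ mr.2) := by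
        by_cases hmz : mr.1 = z
        · rw [hmz, List.erase_cons_head] at hchild_perm
          exact hR.perm hchild_perm.symm
        · have hmR : mr.1 ∈ R := by
            have h1 : mr.1 ∈ p ++ s := by rw [hs]; simp
            rcases List.mem_cons.1 (hps_perm.subset h1) with h' | h'
            · exact absurd h' hmz
            · exact h'
          have h1 := perfSplit_exchange hR hmR hzm
          rw [List.erase_cons_tail (by simpa using fun h' : z = mr.1 => hmz h'.symm)]
            at hchild_perm
          exact h1.perm hchild_perm.symm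
      have hchild_sorted : (p ++ mr.2).Pairwise (· ≥ ·) := by
        have hsub : (p ++ mr.2).Sublist tail := by
          rw [htail, hmr2, hs]
          apply List.Sublist.append (List.Sublist.refl _)
          apply List.Sublist.cons
          apply List.Sublist.append (List.Sublist.refl _)
          exact List.sublist_cons_self _ _
        exact (List.pairwise_cons.1 hsorted).2.sublist hsub
      have hchild_len : (p ++ mr.2).length ≤ 3 * fuel := by
        have h1 : tail.length = (p ++ mr.2).length + 2 := by
          rw [htail, hmr2, hs]
          simp only [List.length_append, List.length_cons]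
          omega
        simp only [List.length_cons] at hlen
        omega
      have ih := split_of_perfSplit L fuel _ hchild_sorted hchild_len hchild
      -- assemble
      unfold split
      rw [Bool.and_eq_true]
      refine ⟨decide_eq_true hsumtest, ?_⟩
      rw [htail]
      apply tryY_of_tryOne
      unfold tryOne
      have hfirst : headNe (p.reverse ++ []) y = true := by
        apply headNe_of_not_mem
        simpa using hyp
      have hmin : x + y + minL x tail ≤ L := by
        have := (minL_le tail x).2 z hztail
        omega
      rw [hfirst, hpick]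
      simp only [Bool.true_and, Bool.and_eq_true, decide_eq_true_eq]
      refine ⟨htail ▸ hmin, ?_⟩
      have hrev : (p.reverse ++ []).reverseAux mr.2 = p ++ mr.2 := by
        rw [List.reverseAux_eq]; simp
      rw [hrev]
      exact ih

/-! ### Replacing the items of a family of triples by the smallest items -/

theorem dominate : ∀ (a M : List ℕ), a.Pairwise (· ≤ ·) → M.Subperm a →
    ∃ M' : List ℕ, M'.Perm M ∧ List.Forall₂ (· ≤ ·) (a.take M.length) M'
  | [], M, _, hsub => by
    have : M = [] := List.subperm_nil.1 hsub
    subst this
    exact ⟨[], List.Perm.refl _, by simp⟩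
  | x :: a', M, ha, hsub => by
    rw [List.pairwise_cons] at ha
    by_cases hx : x ∈ M
    · have h1 : (M.erase x).Subperm a' := by
        have := hsub.erase x
        rwa [List.erase_cons_head] at this
      obtain ⟨M₁, hM₁, hdom⟩ := dominate a' (M.erase x) ha.2 h1
      refine ⟨x :: M₁, (hM₁.cons x).trans (List.perm_cons_erase hx).symm, ?_⟩
      have hlen : M.length = (M.erase x).length + 1 := by
        rw [List.length_erase_of_mem hx]
        have := List.length_pos_of_mem hx
        omega
      rw [hlen, List.take_succ_cons]
      exact List.Forall₂.cons (le_refl x) hdom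
    · cases M with
      | nil => exact ⟨[], List.Perm.refl _, by simp⟩
      | cons y M₁ =>
        have h1 : (y :: M₁).Subperm a' := by
          have := hsub.erase x
          rwa [List.erase_cons_head, List.erase_of_not_mem hx] at this
        have h2 : M₁.Subperm a' := (List.sublist_cons_self y M₁).subperm.trans h1
        obtain ⟨M₂, hM₂, hdom⟩ := dominate a' M₁ ha.2 h2
        refine ⟨y :: M₂, hM₂.cons y, ?_⟩
        rw [List.length_cons, List.take_succ_cons]
        exact List.Forall₂.cons (ha.1 y (h1.subset List.mem_cons_self)) hdom

theorem forall₂_unflatten {R : ℕ → ℕ → Prop} : ∀ (T : List (List ℕ)) (u : List ℕ),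
    List.Forall₂ R u T.flatten → ∃ T' : List (List ℕ), T'.flatten = u ∧
      ∀ t' ∈ T', ∃ t ∈ T, List.Forall₂ R t' t
  | [], u, h => by
    rw [List.flatten_nil, List.forall₂_nil_right_iff] at h
    subst h
    exact ⟨[], rfl, by simp⟩
  | t :: T₁, u, h => by
    rw [List.flatten_cons] at h
    have h1 := List.forall₂_take_append u t T₁.flatten h
    have h2 := List.forall₂_drop_append u t T₁.flatten h
    obtain ⟨T₂, hflat, hT₂⟩ := forall₂_unflatten T₁ _ h2
    refine ⟨u.take t.length :: T₂, ?_, ?_⟩
    · rw [List.flatten_cons, hflat, List.take_append_drop]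
    · intro t' ht'
      rcases List.mem_cons.1 ht' with rfl | ht'
      · exact ⟨t, List.mem_cons_self, h1⟩
      · obtain ⟨t0, ht0, hf⟩ := hT₂ t' ht'
        exact ⟨t0, List.mem_cons_of_mem _ ht0, hf⟩

theorem length_flatten_triples : ∀ (T : List (List ℕ)), (∀ t ∈ T, t.length = 3) →
    T.flatten.length = 3 * T.length
  | [], _ => rfl
  | t :: T₁, h => by
    rw [List.flatten_cons, List.length_append, List.length_cons,
      length_flatten_triples T₁ fun t' ht' => h t' (List.mem_cons_of_mem _ ht'),
      h t List.mem_cons_self]
    omega

/-- If a sorted list contains a family of disjoint triples of total size at most `L` each, then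
its initial segment of the same total length can be split into such triples. -/
theorem shift {L : ℕ} {a : List ℕ} (ha : a.Pairwise (· ≤ ·)) {T : List (List ℕ)}
    (hT : ∀ t ∈ T, t.length = 3 ∧ t.sum ≤ L) (hsub : T.flatten.Subperm a) :
    PerfSplit L (a.take (3 * T.length)) := by
  obtain ⟨M', hM', hdom⟩ := dominate a T.flatten ha hsub
  rw [length_flatten_triples T fun t ht => (hT t ht).1] at hdom
  have hcomp : Relation.Comp (List.Forall₂ (· ≤ ·)) List.Perm (a.take (3 * T.length)) T.flatten :=
    ⟨M', hdom, hM'⟩
  rw [List.forall₂_comp_perm_eq_perm_comp_forall₂] at hcomp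
  obtain ⟨u, hu1, hu2⟩ := hcomp
  obtain ⟨T', hflat, hT'⟩ := forall₂_unflatten T u hu2
  refine ⟨T', ?_, by rw [hflat]; exact hu1.symm⟩
  intro t' ht'
  obtain ⟨t, ht, hf⟩ := hT' t' ht'
  exact ⟨hf.length_eq.trans (hT t ht).1, le_trans hf.sum_le_sum (hT t ht).2⟩

/-! ### From a packing to a family of triples -/

theorem sum_gt_one_of_four : ∀ (B : List ℚ), (∀ x ∈ B, 1 / 4 < x) → 4 ≤ B.length → 1 < B.sum
  | x1 :: x2 :: x3 :: x4 :: rest, h, _ => by
    have h1 := h x1 (by simp)
    have h2 := h x2 (by simp)
    have h3 := h x3 (by simp)
    have h4 := h x4 (by simp)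
    have h5 : 0 ≤ rest.sum := by
      apply List.sum_nonneg
      intro x hx
      have := h x (by simp [hx])
      linarith
    simp only [List.sum_cons]
    linarith
  | [], _, hl => by simp at hl
  | [_], _, hl => by simp at hl
  | [_, _], _, hl => by simp at hl
  | [_, _, _], _, hl => by simp at hl

theorem length_flatten_le : ∀ (bins : List (List ℚ)), (∀ B ∈ bins, B.length ≤ 3) →
    bins.flatten.length ≤ 2 * bins.length + (bins.filter fun B => decide (B.length = 3)).length
  | [], _ => by simp
  | B :: bs, h => by
    have ih := length_flatten_le bs fun B' hB' => h B' (List.mem_cons_of_mem _ hB')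
    have hB := h B List.mem_cons_self
    rw [List.flatten_cons, List.length_append, List.length_cons, List.filter_cons]
    by_cases h3 : B.length = 3
    · simp only [h3, decide_true, if_true, List.length_cons]
      omega
    · simp only [h3, decide_false]
      simp only [Bool.false_eq_true, if_false]
      omega

theorem triples_of_canPack {a : List ℚ} {k : ℕ} (hbig : ∀ x ∈ a, 1 / 4 < x) (h : CanPack a k) :
    ∃ T : List (List ℚ), T.length = a.length - 2 * k ∧ (∀ t ∈ T, t.length = 3 ∧ t.sum ≤ 1) ∧
      T.flatten.Subperm a := by
  obtain ⟨bins, hlen, hsum, hperm⟩ := h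
  have hmem : ∀ B ∈ bins, ∀ x ∈ B, 1 / 4 < x := fun B hB x hx =>
    hbig x (hperm.subset (List.mem_flatten.2 ⟨B, hB, hx⟩))
  have hle3 : ∀ B ∈ bins, B.length ≤ 3 := by
    intro B hB
    by_contra hc
    have h4 : 4 ≤ B.length := by omega
    have := sum_gt_one_of_four B (hmem B hB) h4
    have := hsum B hB
    linarith
  have hcount := length_flatten_le bins hle3
  rw [hperm.length_eq, hlen] at hcount
  refine ⟨(bins.filter fun B => decide (B.length = 3)).take (a.length - 2 * k), ?_, ?_, ?_⟩
  · rw [List.length_take]
    omega
  · intro t ht
    have ht' := List.mem_filter.1 (List.mem_of_mem_take ht)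
    exact ⟨of_decide_eq_true ht'.2, hsum t ht'.1⟩
  · have h1 : ((bins.filter fun B => decide (B.length = 3)).take (a.length - 2 * k)).Sublist bins :=
      (List.take_sublist _ _).trans List.filter_sublist
    exact h1.flatten.subperm.trans hperm.subperm

theorem sum_map_q (L : ℕ) : ∀ (l : List ℕ), (l.map (q L)).sum = ((l.sum : ℕ) : ℚ) / (L : ℚ)
  | [] => by simp
  | s :: l => by
    rw [List.map_cons, List.sum_cons, sum_map_q L l, List.sum_cons]
    unfold q
    push_cast
    ring

theorem natTriples {L : ℕ} (hL : 0 < L) {szs : List ℕ} {T : List (List ℚ)}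
    (hT : ∀ t ∈ T, t.length = 3 ∧ t.sum ≤ 1) (hsub : T.flatten.Subperm (szs.map (q L))) :
    ∃ T' : List (List ℕ), T'.length = T.length ∧ (∀ t ∈ T', t.length = 3 ∧ t.sum ≤ L) ∧
      T'.flatten.Subperm szs := by
  have hL' : (0 : ℚ) < L := by exact_mod_cast hL
  let f : ℚ → ℕ := fun x => ⌊x * (L : ℚ)⌋₊
  have hf : ∀ s : ℕ, f (q L s) = s := by
    intro s
    simp only [f, q]
    rw [div_mul_cancel₀ _ hL'.ne']
    exact Nat.floor_natCast s
  refine ⟨T.map (List.map f), by simp, ?_, ?_⟩
  · intro t' ht'
    obtain ⟨t, ht, rfl⟩ := List.mem_map.1 ht'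
    refine ⟨by rw [List.length_map]; exact (hT t ht).1, ?_⟩
    have hback : (t.map f).map (q L) = t := by
      rw [List.map_map]
      conv_rhs => rw [← List.map_id t]
      apply List.map_congr_left
      intro x hx
      have hx' : x ∈ szs.map (q L) := hsub.subset (List.mem_flatten.2 ⟨t, ht, hx⟩)
      obtain ⟨s, _, rfl⟩ := List.mem_map.1 hx'
      simp only [Function.comp, id]
      rw [hf]
    have hs := (hT t ht).2
    rw [← hback, sum_map_q, div_le_one hL'] at hs
    exact_mod_cast hs
  · have h1 : (T.map (List.map f)).flatten = T.flatten.map f := by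
      rw [List.map_flatten]
    have h2 : (szs.map (q L)).map f = szs := by
      rw [List.map_map]
      conv_rhs => rw [← List.map_id szs]
      apply List.map_congr_left
      intro s _
      simp only [Function.comp, id]
      exact hf s
    rw [h1, ← h2]
    obtain ⟨l, hl_perm, hl_sub⟩ := hsub
    exact ⟨l.map f, hl_perm.map f, hl_sub.map f⟩

/-! ### The certificate -/

/-- The list of sizes with multiplicity. -/
def expand (types : List (ℕ × ℕ)) : List ℕ :=
  types.flatMap fun t => List.replicate t.2 t.1

theorem items_eq_map (L : ℕ) : ∀ (types : List (ℕ × ℕ)),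
    items L types = (expand types).map (q L)
  | [] => rfl
  | t :: ts => by
    have ih := items_eq_map L ts
    unfold items expand at *
    rw [List.flatMap_cons, List.flatMap_cons, List.map_append, ih, List.map_replicate]

/-- The full check for instances all of whose items are larger than a quarter of the capacity:
`types` lists the distinct sizes in increasing order with their demands, the
`3 * (n - 2 * k)` smallest of the `n` items cannot be split into triples fitting into a bin
(so `k` bins do not suffice), and `sol / D` is a feasible LP solution. -/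
def cert23 (types : List (ℕ × ℕ)) (L k D : ℕ) (sol : List (List ℕ × ℕ)) : Bool :=
  decide (0 < L) && decide (0 < D) && decide ((types.map Prod.fst).Nodup) &&
    types.all (fun t => decide (L < 4 * t.1) && decide (t.1 ≤ L) && decide (0 < t.2)) &&
    decide ((expand types).Pairwise (· ≤ ·)) &&
    !split L ((expand types).length - 2 * k)
      (((expand types).take (3 * ((expand types).length - 2 * k))).reverse) &&
    lpCheck types L D sol

theorem cert23_sound {types : List (ℕ × ℕ)} {L k D : ℕ} {sol : List (List ℕ × ℕ)}
    (h : cert23 types L k D sol = true) :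
    (∀ x ∈ items L types, 0 < x ∧ x ≤ 1) ∧
      (k : ℝ) + 1 - ((sol.map Prod.snd).sum : ℕ) / (D : ℝ)
        ≤ (opt (items L types) : ℝ) - lpValue (items L types) := by
  unfold cert23 at h
  simp only [Bool.and_eq_true, decide_eq_true_eq, List.all_eq_true, Bool.not_eq_true'] at h
  obtain ⟨⟨⟨⟨⟨⟨hL, hD⟩, hnd⟩, hty⟩, hsorted⟩, hsplit⟩, hlp⟩ := h
  have hL' : (0 : ℚ) < L := by exact_mod_cast hL
  have hbig : ∀ x ∈ items L types, 1 / 4 < x := by
    intro x hx
    obtain ⟨t, ht, _, rfl⟩ := mem_items.1 hx
    have := (hty t ht).1.1
    unfold q
    rw [lt_div_iff₀ hL']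
    have h4 : ((L : ℕ) : ℚ) < ((4 * t.1 : ℕ) : ℚ) := by exact_mod_cast this
    push_cast at h4
    linarith
  have hitems : ∀ x ∈ items L types, 0 < x ∧ x ≤ 1 := by
    intro x hx
    refine ⟨by have := hbig x hx; linarith, ?_⟩
    obtain ⟨t, ht, _, rfl⟩ := mem_items.1 hx
    have := (hty t ht).1.2
    unfold q
    rw [div_le_one hL']
    exact_mod_cast this
  refine ⟨hitems, ?_⟩
  have hpos : ∀ t ∈ types, 0 < t.2 := fun t ht => (hty t ht).2
  have hnot : ¬ CanPack (items L types) k := by
    intro hcan
    obtain ⟨T, hTlen, hT, hTsub⟩ := triples_of_canPack hbig hcan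
    rw [items_eq_map] at hTsub hTlen
    rw [List.length_map] at hTlen
    obtain ⟨T', hT'len, hT', hT'sub⟩ := natTriples hL hT hTsub
    have h1 := shift hsorted hT' hT'sub
    rw [hT'len, hTlen] at h1
    have hs1 : (((expand types).take (3 * ((expand types).length - 2 * k))).reverse).Pairwise
        (· ≥ ·) := by
      rw [List.pairwise_reverse]
      exact hsorted.sublist (List.take_sublist _ _)
    have hs2 : (((expand types).take (3 * ((expand types).length - 2 * k))).reverse).length
        ≤ 3 * ((expand types).length - 2 * k) := by
      rw [List.length_reverse, List.length_take]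
      exact min_le_left _ _
    have h2 := split_of_perfSplit L ((expand types).length - 2 * k) _ hs1 hs2
      (h1.perm (List.reverse_perm _).symm)
    rw [hsplit] at h2
    exact Bool.false_ne_true h2
  have h1 : k + 1 ≤ opt (items L types) :=
    lt_opt_of_not_canPack (fun x hx => (hitems x hx).2) hnot
  have h2 := lpValue_le_of_lpCheck hL hD hnd hpos sol hlp
  have h3 : ((k : ℝ) + 1) ≤ (opt (items L types) : ℝ) := by exact_mod_cast h1
  linarith

end Vale.Agent.Lib.Helper9.BinPack
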