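import Vale.Agent.Lib.Helper9.BinPackDefs

/-!
Checkable certificates for lower bounds on `opt a - lpValue a`.

An instance is described by a capacity `L` and a list of types, pairs of a size and a demand; the item list
is `items L types` (each size is `size / L`).
* `packBit` is a bit-set dynamic program over multiplicity vectors (encoded as naturals) that
  over-approximates the set of sub-instances packable into `j` bins.
* `lpCheck` checks an explicit fractional solution of the configuration LP.
-/

namespace Vale.Agent.Lib.Helper9.BinPack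

/-! ### General facts about `CanPack` and `opt` -/

theorem canPack_mono {a : List ℚ} {j k : ℕ} (h : CanPack a j) (hjk : j ≤ k) : CanPack a k := by
  obtain ⟨bins, hlen, hsum, hperm⟩ := h
  refine ⟨bins ++ List.replicate (k - j) [], ?_, ?_, ?_⟩
  · simp [hlen]; omega
  · intro B hB
    rcases List.mem_append.1 hB with hB | hB
    · exact hsum B hB
    · rw [List.eq_of_mem_replicate hB]; simp
  · have : (bins ++ List.replicate (k - j) ([] : List ℚ)).flatten = bins.flatten := by
      simp
    rw [this]; exact hperm

theorem flatten_map_single (l : List ℚ) : (l.map fun x => [x]).flatten = l := by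
  induction l with
  | nil => rfl
  | cons x xs ih => simp [ih]

theorem canPack_length {a : List ℚ} (h : ∀ x ∈ a, x ≤ 1) : CanPack a a.length := by
  refine ⟨a.map fun x => [x], by simp, ?_, ?_⟩
  · intro B hB
    obtain ⟨x, hx, rfl⟩ := List.mem_map.1 hB
    simpa using h x hx
  · rw [flatten_map_single]

theorem lt_opt_of_not_canPack {a : List ℚ} {k : ℕ} (h1 : ∀ x ∈ a, x ≤ 1) (h : ¬ CanPack a k) :
    k + 1 ≤ opt a := by
  by_contra hlt
  have hle : opt a ≤ k := by omega
  have hne : {k | CanPack a k}.Nonempty := ⟨a.length, canPack_length h1⟩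
  have hmem : CanPack a (opt a) := Nat.sInf_mem hne
  exact h (canPack_mono hmem hle)

/-! ### Instances from types -/

/-- The rational size `s / L`. -/
def q (L s : ℕ) : ℚ := (s : ℚ) / (L : ℚ)

/-- The item list of the instance with capacity `L` and types, pairs of a size and a demand. -/
def items (L : ℕ) (types : List (ℕ × ℕ)) : List ℚ :=
  types.flatMap fun t => List.replicate t.2 (q L t.1)

theorem q_inj {L : ℕ} (hL : 0 < L) {s s' : ℕ} (h : q L s = q L s') : s = s' := by
  unfold q at h
  have hL' : (L : ℚ) ≠ 0 := by exact_mod_cast hL.ne'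
  have := (div_left_inj' hL').1 h
  exact_mod_cast this

theorem q_nonneg (L s : ℕ) : 0 ≤ q L s := by
  unfold q; positivity

theorem mem_items {L : ℕ} {types : List (ℕ × ℕ)} {x : ℚ} :
    x ∈ items L types ↔ ∃ t ∈ types, 0 < t.2 ∧ x = q L t.1 := by
  unfold items
  simp only [List.mem_flatMap, List.mem_replicate]
  constructor
  · rintro ⟨t, ht, h0, rfl⟩
    exact ⟨t, ht, Nat.pos_of_ne_zero h0, rfl⟩
  · rintro ⟨t, ht, h0, rfl⟩
    exact ⟨t, ht, h0.ne', rfl⟩

/-- For types with pairwise distinct sizes, a sum that selects the type of a given size. -/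
theorem sum_select {L : ℕ} (hL : 0 < L) (f : ℕ × ℕ → ℕ) :
    ∀ (types : List (ℕ × ℕ)), (types.map Prod.fst).Nodup → ∀ t0 ∈ types,
      (types.map fun t => if q L t.1 = q L t0.1 then f t else 0).sum = f t0 := by
  intro types
  induction types with
  | nil => intro _ t0 h0; simp at h0
  | cons t ts ih =>
    intro hnd t0 h0
    rw [List.map_cons, List.nodup_cons] at hnd
    rw [List.map_cons, List.sum_cons]
    rcases List.mem_cons.1 h0 with rfl | h0'
    · have hz : (ts.map fun t => if q L t.1 = q L t0.1 then f t else 0).sum = 0 := by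
        apply List.sum_eq_zero
        intro x hx
        obtain ⟨t, ht, rfl⟩ := List.mem_map.1 hx
        have hne : q L t.1 ≠ q L t0.1 := by
          intro he
          have := q_inj hL he
          exact hnd.1 (this ▸ List.mem_map_of_mem (f := Prod.fst) ht)
        simp [hne]
      simp [hz]
    · have hne : q L t.1 ≠ q L t0.1 := by
        intro he
        have := q_inj hL he
        exact hnd.1 (this ▸ List.mem_map_of_mem (f := Prod.fst) h0')
      simp [hne, ih hnd.2 t0 h0']

theorem count_items {L : ℕ} (hL : 0 < L) {types : List (ℕ × ℕ)}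
    (hnd : (types.map Prod.fst).Nodup) {t0 : ℕ × ℕ} (h0 : t0 ∈ types) :
    (items L types).count (q L t0.1) = t0.2 := by
  unfold items
  rw [List.count_flatMap]
  have : (types.map (List.count (q L t0.1) ∘ fun t => List.replicate t.2 (q L t.1)))
      = types.map fun t => if q L t.1 = q L t0.1 then t.2 else 0 := by
    apply List.map_congr_left
    intro t _
    simp [List.count_replicate]
  rw [this]
  exact sum_select hL (fun t => t.2) types hnd t0 h0

/-! ### Sums over a bin, grouped by type -/

theorem sum_if_le {x : ℚ} (hx : 0 ≤ x) :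
    ∀ (vs : List ℚ), vs.Nodup → (vs.map fun v => if v = x then v else 0).sum ≤ x := by
  intro vs
  induction vs with
  | nil => intro _; simpa using hx
  | cons v vs ih =>
    intro hnd
    rw [List.nodup_cons] at hnd
    rw [List.map_cons, List.sum_cons]
    by_cases hv : v = x
    · have hz : (vs.map fun v => if v = x then v else 0).sum = 0 := by
        apply List.sum_eq_zero
        intro y hy
        obtain ⟨u, hu, rfl⟩ := List.mem_map.1 hy
        have : u ≠ x := by
          intro he; exact hnd.1 (hv ▸ he ▸ hu)
        simp [this]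
      simp [hv, hz]
    · simp only [hv, if_false, zero_add]
      exact ih hnd.2

/-- The part of a bin made of items of the listed (distinct) sizes weighs at most the bin. -/
theorem sum_count_le (vs : List ℚ) (hnd : vs.Nodup) :
    ∀ (B : List ℚ), (∀ x ∈ B, 0 ≤ x) → (vs.map fun v => (B.count v : ℚ) * v).sum ≤ B.sum := by
  intro B
  induction B with
  | nil => intro _; simp
  | cons x B ih =>
    intro hB
    have hx : 0 ≤ x := hB x (List.mem_cons_self)
    have hB' : ∀ y ∈ B, 0 ≤ y := fun y hy => hB y (List.mem_cons_of_mem _ hy)
    have key : (vs.map fun v => ((x :: B).count v : ℚ) * v)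
        = vs.map fun v => (B.count v : ℚ) * v + (if v = x then v else 0) := by
      apply List.map_congr_left
      intro v _
      rw [List.count_cons]
      by_cases hv : v = x
      · subst hv; simp; ring
      · have : ¬ (x == v) = true := by simpa using fun h => hv h.symm
        simp [hv, this]
    rw [key, List.sum_map_add, List.sum_cons]
    have h1 := ih hB'
    have h2 := sum_if_le hx vs hnd
    linarith

/-! ### The bit-set dynamic program -/

/-- Dot product of a weight vector and a multiplicity vector. -/
def code : List ℕ → List ℕ → ℕ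
  | w :: ws, c :: cs => w * c + code ws cs
  | _, _ => 0

/-- Total size (in units of `1 / L`) of a multiplicity vector over the types. -/
def psize : List (ℕ × ℕ) → List ℕ → ℕ
  | t :: ts, x :: xs => x * t.1 + psize ts xs
  | _, _ => 0

/-- All multiplicity vectors `p` (one entry per type) with entries bounded by the demands and
total size at most `cap`. -/
def allPats : List (ℕ × ℕ) → ℕ → List (List ℕ)
  | [], _ => [[]]
  | t :: ts, cap =>
    (List.range (t.2 + 1)).flatMap fun x =>
      if x * t.1 ≤ cap then (allPats ts (cap - x * t.1)).map (x :: ·) else []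

/-- Bit mask of the codes of all vectors bounded entrywise by `bs`. -/
def boxMask : List ℕ → List ℕ → ℕ
  | w :: ws, b :: bs =>
    let M := boxMask ws bs
    (List.range (b + 1)).foldl (fun acc x => acc ||| (M <<< (x * w))) 0
  | _, _ => 1

/-- One more bin: shift the current bit set by every pattern and keep the valid codes. -/
def step (w : List ℕ) (pats : List (List ℕ)) (V X : ℕ) : ℕ :=
  (pats.foldl (fun acc p => acc ||| (X <<< code w p)) 0) &&& V

/-- Bit set (over-approximating) the codes of vectors packable into `j` bins. -/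
def dp (w : List ℕ) (pats : List (List ℕ)) (V : ℕ) : ℕ → ℕ
  | 0 => 1
  | j + 1 => step w pats V (dp w pats V j)

/-- Whether the bit of the full demand vector is set after `k` bins. -/
def packBit (types : List (ℕ × ℕ)) (w : List ℕ) (L k : ℕ) : Bool :=
  (dp w (allPats types L) (boxMask w (types.map Prod.snd)) k).testBit
    (code w (types.map Prod.snd))

theorem code_nil_right (w : List ℕ) : code w [] = 0 := by
  cases w <;> rfl

theorem code_map_zero {α : Type} : ∀ (w : List ℕ) (l : List α), code w (l.map fun _ => 0) = 0 := by
  intro w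
  induction w with
  | nil => intro l; rfl
  | cons a w ih =>
    intro l
    cases l with
    | nil => rfl
    | cons t l => simp only [List.map_cons, code, ih, Nat.mul_zero]

theorem code_nil_left (c : List ℕ) : code [] c = 0 := by
  cases c <;> rfl

theorem boxMask_nil_left (bs : List ℕ) : boxMask [] bs = 1 := by
  cases bs <;> rfl

theorem boxMask_nil_right (ws : List ℕ) : boxMask ws [] = 1 := by
  cases ws <;> rfl

theorem code_map_add {α : Type} (f g : α → ℕ) : ∀ (w : List ℕ) (l : List α),
    code w (l.map fun t => f t + g t) = code w (l.map f) + code w (l.map g) := by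
  intro w
  induction w with
  | nil => intro l; rfl
  | cons a w ih =>
    intro l
    cases l with
    | nil => rfl
    | cons t l => simp only [List.map_cons, code, ih]; ring

theorem testBit_foldl_lor {α : Type} (g : α → ℕ) (n : ℕ) : ∀ (l : List α) (acc : ℕ),
    (acc.testBit n = true ∨ ∃ p ∈ l, (g p).testBit n = true) →
      (l.foldl (fun acc p => acc ||| g p) acc).testBit n = true := by
  intro l
  induction l with
  | nil =>
    intro acc h
    rcases h with h | ⟨p, hp, _⟩
    · simpa using h
    · simp at hp
  | cons a l ih =>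
    intro acc h
    rw [List.foldl_cons]
    apply ih
    rcases h with h | ⟨p, hp, hpb⟩
    · left; rw [Nat.testBit_or, h]; rfl
    · rcases List.mem_cons.1 hp with rfl | hp'
      · left; rw [Nat.testBit_or, hpb]; simp
      · right; exact ⟨p, hp', hpb⟩

theorem testBit_step {w : List ℕ} {pats : List (List ℕ)} {V X e : ℕ} {p : List ℕ}
    (hX : X.testBit e = true) (hp : p ∈ pats) (hV : V.testBit (e + code w p) = true) :
    (step w pats V X).testBit (e + code w p) = true := by
  unfold step
  rw [Nat.testBit_and, hV, Bool.and_true]
  apply testBit_foldl_lor (fun p => X <<< code w p)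
  right
  refine ⟨p, hp, ?_⟩
  rw [Nat.testBit_shiftLeft]
  simp [hX]

theorem testBit_boxMask : ∀ (ws bs c : List ℕ), List.Forall₂ (· ≤ ·) c bs →
    (boxMask ws bs).testBit (code ws c) = true := by
  intro ws
  induction ws with
  | nil =>
    intro bs c _
    rw [boxMask_nil_left, code_nil_left]
    exact Nat.testBit_one_zero
  | cons w ws ih =>
    intro bs c h
    cases h with
    | nil =>
      rw [boxMask_nil_right, code_nil_right]
      exact Nat.testBit_one_zero
    | @cons x b c' bs' hxb hrest =>
      show ((List.range (b + 1)).foldl (fun acc x => acc ||| (boxMask ws bs' <<< (x * w))) 0).testBit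
        (w * x + code ws c') = true
      apply testBit_foldl_lor (fun x => boxMask ws bs' <<< (x * w))
      right
      refine ⟨x, List.mem_range.2 (by omega), ?_⟩
      rw [Nat.testBit_shiftLeft, Nat.mul_comm x w]
      simp [ih bs' c' hrest]

theorem psize_map (f : ℕ × ℕ → ℕ) : ∀ (types : List (ℕ × ℕ)),
    psize types (types.map f) = (types.map fun t => f t * t.1).sum := by
  intro types
  induction types with
  | nil => rfl
  | cons t ts ih => simp [psize, ih]

theorem mem_allPats (f : ℕ × ℕ → ℕ) : ∀ (types : List (ℕ × ℕ)) (cap : ℕ),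
    (∀ t ∈ types, f t ≤ t.2) → psize types (types.map f) ≤ cap →
      types.map f ∈ allPats types cap := by
  intro types
  induction types with
  | nil => intro cap _ _; simp [allPats]
  | cons t ts ih =>
    intro cap hle hsz
    simp only [List.map_cons, psize] at hsz
    have h1 : f t ≤ t.2 := hle t (List.mem_cons_self)
    have h2 : ∀ u ∈ ts, f u ≤ u.2 := fun u hu => hle u (List.mem_cons_of_mem _ hu)
    have h3 : f t * t.1 ≤ cap := by omega
    have h4 := ih (cap - f t * t.1) h2 (by omega)
    simp only [List.map_cons, allPats, List.mem_flatMap, List.mem_range]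
    refine ⟨f t, by omega, ?_⟩
    rw [if_pos h3]
    exact List.mem_map_of_mem h4

theorem forall₂_map_le {α : Type} (f g : α → ℕ) : ∀ (l : List α), (∀ t ∈ l, f t ≤ g t) →
    List.Forall₂ (· ≤ ·) (l.map f) (l.map g) := by
  intro l
  induction l with
  | nil => intro _; exact List.Forall₂.nil
  | cons t l ih =>
    intro h
    exact List.Forall₂.cons (h t (List.mem_cons_self))
      (ih fun u hu => h u (List.mem_cons_of_mem _ hu))

theorem sum_q_mul (L : ℕ) (f : ℕ × ℕ → ℕ) : ∀ (l : List (ℕ × ℕ)),
    (l.map fun t => (f t : ℚ) * q L t.1).sum = (((l.map fun t => f t * t.1).sum : ℕ) : ℚ) / L := by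
  intro l
  induction l with
  | nil => simp
  | cons t l ih =>
    simp only [List.map_cons, List.sum_cons]
    rw [ih]
    unfold q
    push_cast
    ring

theorem nodup_map_q {L : ℕ} (hL : 0 < L) {types : List (ℕ × ℕ)}
    (hnd : (types.map Prod.fst).Nodup) : (types.map fun t => q L t.1).Nodup := by
  have : (types.map fun t => q L t.1) = (types.map Prod.fst).map (q L) := by
    rw [List.map_map]; rfl
  rw [this]
  exact hnd.map (fun s s' h => q_inj hL h)

/-- The multiplicity vector of a bin has total size at most `L`. -/
theorem bin_size_le {L : ℕ} (hL : 0 < L) {types : List (ℕ × ℕ)}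
    (hnd : (types.map Prod.fst).Nodup) {B : List ℚ} (hB : B.sum ≤ 1) (hpos : ∀ x ∈ B, 0 ≤ x) :
    (types.map fun t => B.count (q L t.1) * t.1).sum ≤ L := by
  have h1 := sum_count_le (types.map fun t => q L t.1) (nodup_map_q hL hnd) B hpos
  rw [List.map_map] at h1
  have h2 : (types.map ((fun v => (B.count v : ℚ) * v) ∘ fun t => q L t.1))
      = types.map fun t => ((B.count (q L t.1) : ℕ) : ℚ) * q L t.1 := rfl
  rw [h2, sum_q_mul L (fun t => B.count (q L t.1))] at h1
  have hL' : (0 : ℚ) < L := by exact_mod_cast hL
  have h3 : (((types.map fun t => B.count (q L t.1) * t.1).sum : ℕ) : ℚ) ≤ L := by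
    have := le_trans h1 hB
    rwa [div_le_one hL'] at this
  exact_mod_cast h3

theorem dp_sound {L : ℕ} (hL : 0 < L) {types : List (ℕ × ℕ)}
    (hnd : (types.map Prod.fst).Nodup) (w : List ℕ) :
    ∀ (Bs : List (List ℚ)), (∀ B ∈ Bs, B.sum ≤ 1 ∧ ∀ x ∈ B, 0 ≤ x) →
      (∀ t ∈ types, Bs.flatten.count (q L t.1) ≤ t.2) →
      (dp w (allPats types L) (boxMask w (types.map Prod.snd)) Bs.length).testBit
        (code w (types.map fun t => Bs.flatten.count (q L t.1))) = true := by
  intro Bs
  induction Bs with
  | nil =>
    intro _ _
    simp only [List.flatten_nil, List.count_nil, List.length_nil]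
    rw [code_map_zero]
    exact Nat.testBit_one_zero
  | cons B Bs ih =>
    intro hB hcount
    have hB0 := hB B (List.mem_cons_self)
    have hBs : ∀ B' ∈ Bs, B'.sum ≤ 1 ∧ ∀ x ∈ B', 0 ≤ x :=
      fun B' h => hB B' (List.mem_cons_of_mem _ h)
    have hc : ∀ t ∈ types, B.count (q L t.1) + Bs.flatten.count (q L t.1) ≤ t.2 := by
      intro t ht
      have := hcount t ht
      rwa [List.flatten_cons, List.count_append] at this
    have hcount' : ∀ t ∈ types, Bs.flatten.count (q L t.1) ≤ t.2 := by
      intro t ht; have := hc t ht; omega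
    have ih' := ih hBs hcount'
    have hvec : (types.map fun t => (B :: Bs).flatten.count (q L t.1))
        = types.map fun t => Bs.flatten.count (q L t.1) + B.count (q L t.1) := by
      apply List.map_congr_left
      intro t _
      rw [List.flatten_cons, List.count_append, Nat.add_comm]
    have hmem : (types.map fun t => B.count (q L t.1)) ∈ allPats types L := by
      apply mem_allPats
      · intro t ht; have := hc t ht; omega
      · rw [psize_map]
        exact bin_size_le hL hnd hB0.1 hB0.2
    rw [hvec, code_map_add, List.length_cons]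
    show (step w (allPats types L) (boxMask w (types.map Prod.snd))
      (dp w (allPats types L) (boxMask w (types.map Prod.snd)) Bs.length)).testBit _ = true
    apply testBit_step ih' hmem
    rw [← code_map_add]
    apply testBit_boxMask
    apply forall₂_map_le
    intro t ht
    have := hc t ht
    omega

theorem not_canPack_of_packBit {L : ℕ} (hL : 0 < L) {types : List (ℕ × ℕ)}
    (hnd : (types.map Prod.fst).Nodup) (w : List ℕ) (k : ℕ)
    (h : packBit types w L k = false) : ¬ CanPack (items L types) k := by
  rintro ⟨bins, hlen, hsum, hperm⟩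
  have hcount : ∀ t ∈ types, bins.flatten.count (q L t.1) = t.2 := by
    intro t ht
    rw [hperm.count_eq, count_items hL hnd ht]
  have hpos : ∀ B ∈ bins, B.sum ≤ 1 ∧ ∀ x ∈ B, 0 ≤ x := by
    intro B hB
    refine ⟨hsum B hB, ?_⟩
    intro x hx
    have hx' : x ∈ items L types := hperm.mem_iff.1 (List.mem_flatten.2 ⟨B, hB, hx⟩)
    obtain ⟨t, _, _, rfl⟩ := mem_items.1 hx'
    exact q_nonneg L t.1
  have key := dp_sound hL hnd w bins hpos (fun t ht => (hcount t ht).le)
  have hvec : (types.map fun t => bins.flatten.count (q L t.1)) = types.map Prod.snd := by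
    apply List.map_congr_left
    intro t ht
    exact hcount t ht
  rw [hvec, hlen] at key
  unfold packBit at h
  rw [key] at h
  exact Bool.noConfusion h

/-! ### Checking a fractional solution of the configuration LP -/

/-- The configuration (as a function on sizes) of a multiplicity vector over the types. -/
def cfg (L : ℕ) : List (ℕ × ℕ) → List ℕ → ℚ → ℕ
  | t :: ts, x :: xs, σ => (if q L t.1 = σ then x else 0) + cfg L ts xs σ
  | _, _, _ => 0

/-- The entry of a multiplicity vector at the type of size `s`. -/
def cfgN : List (ℕ × ℕ) → List ℕ → ℕ → ℕ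
  | t :: ts, x :: xs, s => (if t.1 = s then x else 0) + cfgN ts xs s
  | _, _, _ => 0

theorem cfg_q {L : ℕ} (hL : 0 < L) (s : ℕ) : ∀ (types : List (ℕ × ℕ)) (p : List ℕ),
    cfg L types p (q L s) = cfgN types p s := by
  intro types
  induction types with
  | nil => intro p; rfl
  | cons t ts ih =>
    intro p
    cases p with
    | nil => rfl
    | cons x xs =>
      simp only [cfg, cfgN, ih]
      by_cases h : t.1 = s
      · simp [h]
      · have : q L t.1 ≠ q L s := fun he => h (q_inj hL he)
        simp [h, this]

theorem cfg_eq_zero {L : ℕ} (σ : ℚ) : ∀ (types : List (ℕ × ℕ)) (p : List ℕ),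
    (∀ t ∈ types, q L t.1 ≠ σ) → cfg L types p σ = 0 := by
  intro types
  induction types with
  | nil => intro p _; rfl
  | cons t ts ih =>
    intro p h
    cases p with
    | nil => rfl
    | cons x xs =>
      simp only [cfg]
      rw [if_neg (h t (List.mem_cons_self)), ih xs fun u hu => h u (List.mem_cons_of_mem _ hu)]

theorem cfgN_eq_zero (s : ℕ) : ∀ (types : List (ℕ × ℕ)) (p : List ℕ),
    s ∉ types.map Prod.fst → cfgN types p s = 0 := by
  intro types
  induction types with
  | nil => intro p _; rfl
  | cons t ts ih =>
    intro p h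
    cases p with
    | nil => rfl
    | cons x xs =>
      simp only [List.map_cons, List.mem_cons, not_or] at h
      simp only [cfgN]
      rw [if_neg (fun he => h.1 he.symm), ih xs h.2]

theorem sum_cfgN : ∀ (types : List (ℕ × ℕ)) (p : List ℕ), (types.map Prod.fst).Nodup →
    (types.map fun t => cfgN types p t.1 * t.1).sum = psize types p := by
  intro types
  induction types with
  | nil => intro p _; cases p <;> rfl
  | cons t ts ih =>
    intro p hnd
    rw [List.map_cons, List.nodup_cons] at hnd
    cases p with
    | nil =>
      have : ((t :: ts).map fun u => cfgN (t :: ts) [] u.1 * u.1) = (t :: ts).map fun _ => 0 := by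
        apply List.map_congr_left
        intro u _
        simp [cfgN]
      rw [this]
      simp [psize]
    | cons x xs =>
      rw [List.map_cons, List.sum_cons]
      have h1 : cfgN (t :: ts) (x :: xs) t.1 = x := by
        simp only [cfgN, if_true]
        rw [cfgN_eq_zero t.1 ts xs hnd.1]
        rfl
      have h2 : (ts.map fun u => cfgN (t :: ts) (x :: xs) u.1 * u.1)
          = ts.map fun u => cfgN ts xs u.1 * u.1 := by
        apply List.map_congr_left
        intro u hu
        have hne : t.1 ≠ u.1 := by
          intro he
          exact hnd.1 (he ▸ List.mem_map_of_mem (f := Prod.fst) hu)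
        simp only [cfgN, if_neg hne, Nat.zero_add]
      rw [h1, h2, ih xs hnd.2]
      rfl

/-- Check of a fractional LP solution: `sol` lists pairs (multiplicity vector, numerator of the
weight over the common denominator `D`). -/
def lpCheck (types : List (ℕ × ℕ)) (L D : ℕ) (sol : List (List ℕ × ℕ)) : Bool :=
  sol.all (fun z => decide (psize types z.1 ≤ L)) &&
    types.all (fun t => decide (t.2 * D ≤ (sol.map fun z => cfgN types z.1 t.1 * z.2).sum))

theorem isConfig_cfg {L : ℕ} (hL : 0 < L) {types : List (ℕ × ℕ)}
    (hnd : (types.map Prod.fst).Nodup) (hpos : ∀ t ∈ types, 0 < t.2) (p : List ℕ)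
    (hp : psize types p ≤ L) : IsConfig (items L types) (cfg L types p) := by
  constructor
  · intro σ hσ
    apply cfg_eq_zero
    intro t ht he
    exact hσ (mem_items.2 ⟨t, ht, hpos t ht, he.symm⟩)
  · have hsub : (items L types).toFinset ⊆ (types.map fun t => q L t.1).toFinset := by
      intro x hx
      rw [List.mem_toFinset] at hx ⊢
      obtain ⟨t, ht, _, rfl⟩ := mem_items.1 hx
      exact List.mem_map_of_mem (f := fun t => q L t.1) ht
    have hnn : ∀ σ ∈ (types.map fun t => q L t.1).toFinset, σ ∉ (items L types).toFinset →
        0 ≤ σ * (cfg L types p σ : ℚ) := by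
      intro σ hσ _
      rw [List.mem_toFinset] at hσ
      obtain ⟨t, _, rfl⟩ := List.mem_map.1 hσ
      exact mul_nonneg (q_nonneg L t.1) (Nat.cast_nonneg _)
    refine le_trans (Finset.sum_le_sum_of_subset_of_nonneg hsub hnn) ?_
    rw [List.sum_toFinset _ (nodup_map_q hL hnd), List.map_map]
    have h1 : (types.map ((fun σ => σ * (cfg L types p σ : ℚ)) ∘ fun t => q L t.1))
        = types.map fun t => ((cfgN types p t.1 : ℕ) : ℚ) * q L t.1 := by
      apply List.map_congr_left
      intro t _
      simp only [Function.comp]
      rw [cfg_q hL, mul_comm]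
    rw [h1, sum_q_mul L (fun t => cfgN types p t.1), sum_cfgN types p hnd]
    have hL' : (0 : ℚ) < L := by exact_mod_cast hL
    rw [div_le_one hL']
    exact_mod_cast hp

theorem sum_div_nat (D : ℕ) : ∀ (l : List ℕ),
    (l.map fun n : ℕ => (n : ℝ) / (D : ℝ)).sum = ((l.sum : ℕ) : ℝ) / (D : ℝ) := by
  intro l
  induction l with
  | nil => simp
  | cons n l ih =>
    simp only [List.map_cons, List.sum_cons]
    rw [ih]
    push_cast
    ring

theorem lpValue_le_of_lpCheck {L D : ℕ} (hL : 0 < L) (hD : 0 < D) {types : List (ℕ × ℕ)}
    (hnd : (types.map Prod.fst).Nodup) (hpos : ∀ t ∈ types, 0 < t.2) (sol : List (List ℕ × ℕ))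
    (h : lpCheck types L D sol = true) :
    lpValue (items L types) ≤ ((sol.map Prod.snd).sum : ℕ) / (D : ℝ) := by
  unfold lpCheck at h
  rw [Bool.and_eq_true, List.all_eq_true, List.all_eq_true] at h
  obtain ⟨h1, h2⟩ := h
  have hD' : (0 : ℝ) < D := by exact_mod_cast hD
  let z : List ((ℚ → ℕ) × ℝ) := sol.map fun s => (cfg L types s.1, (s.2 : ℝ) / D)
  have hfeas : LPFeasible (items L types) z := by
    constructor
    · intro pr hpr
      obtain ⟨s, hs, rfl⟩ := List.mem_map.1 hpr
      refine ⟨isConfig_cfg hL hnd hpos s.1 (by simpa using h1 s hs), ?_⟩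
      positivity
    · intro σ hσ
      obtain ⟨t, ht, _, rfl⟩ := mem_items.1 hσ
      rw [count_items hL hnd ht]
      have h3 : t.2 * D ≤ (sol.map fun s => cfgN types s.1 t.1 * s.2).sum := by
        simpa using h2 t ht
      have h4 : (z.map fun pr => (pr.1 (q L t.1) : ℝ) * pr.2)
          = (sol.map fun s => cfgN types s.1 t.1 * s.2).map fun n : ℕ => (n : ℝ) / (D : ℝ) := by
        simp only [z, List.map_map]
        apply List.map_congr_left
        intro s _
        simp only [Function.comp]
        rw [cfg_q hL]
        push_cast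
        ring
      rw [h4, sum_div_nat, le_div_iff₀ hD']
      exact_mod_cast h3
  have hval : (z.map Prod.snd).sum = ((sol.map Prod.snd).sum : ℕ) / (D : ℝ) := by
    have : z.map Prod.snd = (sol.map Prod.snd).map fun n : ℕ => (n : ℝ) / (D : ℝ) := by
      simp only [z, List.map_map]
      rfl
    rw [this, sum_div_nat]
  unfold lpValue
  apply csInf_le
  · refine ⟨0, ?_⟩
    rintro v ⟨z', hz', rfl⟩
    apply List.sum_nonneg
    intro x hx
    obtain ⟨pr, hpr, rfl⟩ := List.mem_map.1 hx
    exact (hz'.1 pr hpr).2
  · exact ⟨z, hfeas, hval.symm⟩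

/-! ### The combined certificate -/

/-- The full check: sizes positive and at most `L`, pairwise distinct, positive demands,
the instance is not packable into `k` bins, and `sol / D` is a feasible LP solution. -/
def certCheck (types : List (ℕ × ℕ)) (w : List ℕ) (L k D : ℕ) (sol : List (List ℕ × ℕ)) : Bool :=
  decide (0 < L) && decide (0 < D) && decide ((types.map Prod.fst).Nodup) &&
    types.all (fun t => decide (0 < t.1) && decide (t.1 ≤ L) && decide (0 < t.2)) &&
    !packBit types w L k && lpCheck types L D sol

theorem cert_sound {types : List (ℕ × ℕ)} {w : List ℕ} {L k D : ℕ} {sol : List (List ℕ × ℕ)}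
    (h : certCheck types w L k D sol = true) :
    (∀ x ∈ items L types, 0 < x ∧ x ≤ 1) ∧
      (k : ℝ) + 1 - ((sol.map Prod.snd).sum : ℕ) / (D : ℝ)
        ≤ (opt (items L types) : ℝ) - lpValue (items L types) := by
  unfold certCheck at h
  simp only [Bool.and_eq_true, decide_eq_true_eq, List.all_eq_true, Bool.not_eq_true'] at h
  obtain ⟨⟨⟨⟨⟨hL, hD⟩, hnd⟩, hty⟩, hpack⟩, hlp⟩ := h
  have hitems : ∀ x ∈ items L types, 0 < x ∧ x ≤ 1 := by
    intro x hx
    obtain ⟨t, ht, _, rfl⟩ := mem_items.1 hx
    have := hty t ht
    have hL' : (0 : ℚ) < L := by exact_mod_cast hL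
    unfold q
    constructor
    · apply div_pos _ hL'
      exact_mod_cast this.1.1
    · rw [div_le_one hL']
      exact_mod_cast this.1.2
  refine ⟨hitems, ?_⟩
  have hpos : ∀ t ∈ types, 0 < t.2 := fun t ht => (hty t ht).2
  have h1 : k + 1 ≤ opt (items L types) :=
    lt_opt_of_not_canPack (fun x hx => (hitems x hx).2) (not_canPack_of_packBit hL hnd w k hpack)
  have h2 := lpValue_le_of_lpCheck hL hD hnd hpos sol hlp
  have h3 : ((k : ℝ) + 1) ≤ (opt (items L types) : ℝ) := by exact_mod_cast h1
  linarith

end Vale.Agent.Lib.Helper9.BinPack
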