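import Mathlib

/-!
Bin packing: optimal number of bins and the Gilmore-Gomory configuration LP value,
for an instance given as a finite list of rational item sizes.
-/

namespace Vale.Agent.Lib.Helper9.BinPack

/-- The items of the list `a` can be partitioned into `k` bins (some possibly empty),
each of total size at most `1`: there is a list of `k` lists of sizes, each with sum at most `1`,
whose concatenation is a rearrangement of `a`. -/
def CanPack (a : List ℚ) (k : ℕ) : Prop :=
  ∃ bins : List (List ℚ), bins.length = k ∧ (∀ B ∈ bins, B.sum ≤ 1) ∧ bins.flatten.Perm a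

/-- `OPT(I)`: the least number of bins into which the items can be partitioned. -/
noncomputable def opt (a : List ℚ) : ℕ := sInf {k | CanPack a k}

/-- A configuration of the instance `a`: a multiplicity vector `c` on the distinct sizes of `a`
(zero outside them) whose total size is at most `1`. A multiplicity `c σ` may exceed the
number of items of size `σ` in `a`. -/
def IsConfig (a : List ℚ) (c : ℚ → ℕ) : Prop :=
  (∀ σ, σ ∉ a → c σ = 0) ∧ ∑ σ ∈ a.toFinset, σ * (c σ : ℚ) ≤ 1

/-- A feasible solution of the configuration LP, written as a finite list of pairs
(configuration, nonnegative real weight): every distinct size `σ` of `a` is covered at least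
as often as it occurs in `a`. -/
def LPFeasible (a : List ℚ) (z : List ((ℚ → ℕ) × ℝ)) : Prop :=
  (∀ p ∈ z, IsConfig a p.1 ∧ 0 ≤ p.2) ∧
    ∀ σ ∈ a, (a.count σ : ℝ) ≤ (z.map fun p => (p.1 σ : ℝ) * p.2).sum

/-- `LP(I)`: the value of the Gilmore-Gomory configuration LP, the infimum (it is attained)
of the total weight of feasible solutions. -/
noncomputable def lpValue (a : List ℚ) : ℝ :=
  sInf {v : ℝ | ∃ z, LPFeasible a z ∧ v = (z.map Prod.snd).sum}

end Vale.Agent.Lib.Helper9.BinPack
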