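import Vale.Agent.Lib.Helper9.BinPackDefs

/-!
Small instances of bin packing: weak duality for the configuration LP, a greedy insertion
lemma, and the modified round-up inequality `opt a ≤ ⌈lpValue a⌉ + 1` when `lpValue a ≤ 3`.
-/

namespace Vale.Agent.Lib.Helper9.BinPack

open Finset

/-! ### Basic facts about `CanPack` -/

theorem canPack_mono' {a : List ℚ} {j k : ℕ} (h : CanPack a j) (hjk : j ≤ k) : CanPack a k := by
  obtain ⟨bins, hlen, hsum, hperm⟩ := h
  refine ⟨bins ++ List.replicate (k - j) [], ?_, ?_, ?_⟩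
  · simp [hlen]; omega
  · intro B hB
    rcases List.mem_append.1 hB with hB | hB
    · exact hsum B hB
    · rw [List.eq_of_mem_replicate hB]; simp
  · have : (bins ++ List.replicate (k - j) ([] : List ℚ)).flatten = bins.flatten := by
      simp
    rw [this]; exact hperm

theorem opt_le_of_canPack {a : List ℚ} {k : ℕ} (h : CanPack a k) : opt a ≤ k :=
  Nat.sInf_le h

theorem canPack_perm {a a' : List ℚ} {k : ℕ} (h : CanPack a k) (hp : a.Perm a') : CanPack a' k := by
  obtain ⟨bins, hlen, hsum, hperm⟩ := h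
  exact ⟨bins, hlen, hsum, hperm.trans hp⟩

theorem canPack_append {a b : List ℚ} {j k : ℕ} (ha : CanPack a j) (hb : CanPack b k) :
    CanPack (a ++ b) (j + k) := by
  obtain ⟨b1, hl1, hs1, hp1⟩ := ha
  obtain ⟨b2, hl2, hs2, hp2⟩ := hb
  refine ⟨b1 ++ b2, by simp [hl1, hl2], ?_, ?_⟩
  · intro B hB
    rcases List.mem_append.1 hB with hB | hB
    · exact hs1 B hB
    · exact hs2 B hB
  · rw [List.flatten_append]
    exact hp1.append hp2

theorem canPack_single_bin {a : List ℚ} (h : a.sum ≤ 1) : CanPack a 1 :=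
  ⟨[a], rfl, by simpa using h, by simp⟩

theorem canPack_nil (k : ℕ) : CanPack [] k :=
  ⟨List.replicate k [], by simp, by
    intro B hB
    rw [List.eq_of_mem_replicate hB]; simp, by simp⟩

theorem canPack_singletons {a : List ℚ} (h : ∀ x ∈ a, x ≤ 1) : CanPack a a.length := by
  refine ⟨a.map fun x => [x], by simp, ?_, ?_⟩
  · intro B hB
    obtain ⟨x, hx, rfl⟩ := List.mem_map.1 hB
    simpa using h x hx
  · have : ∀ l : List ℚ, (l.map fun x => [x]).flatten = l := by
      intro l
      induction l with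
      | nil => rfl
      | cons x xs ih => simp [ih]
    rw [this]

/-- Items of size at most one half can be packed two per bin. -/
theorem canPack_pairs : ∀ l : List ℚ, (∀ x ∈ l, x ≤ 1 / 2) → CanPack l ((l.length + 1) / 2) := by
  have key : ∀ n : ℕ, ∀ l : List ℚ, l.length = n → (∀ x ∈ l, x ≤ 1 / 2) →
      CanPack l ((l.length + 1) / 2) := by
    intro n
    induction n using Nat.strong_induction_on with
    | _ n ih =>
      intro l hl hx
      match l, hl, hx with
      | [], _, _ => exact canPack_nil _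
      | [x], _, hx =>
        have : CanPack [x] 1 := canPack_single_bin (by
          have := hx x (by simp)
          simp; linarith)
        simpa using this
      | x :: y :: l', hl, hx =>
        have h1 : CanPack [x, y] 1 := canPack_single_bin (by
          have h1 := hx x (by simp)
          have h2 := hx y (by simp)
          simp; linarith)
        have h2 : CanPack l' ((l'.length + 1) / 2) :=
          ih l'.length (by simp at hl; omega) l' rfl (fun z hz => hx z (by simp [hz]))
        have h3 := canPack_append h1 h2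
        have e : (((x :: y :: l').length + 1) / 2) = 1 + (l'.length + 1) / 2 := by
          simp only [List.length_cons]; omega
        rw [e]
        exact h3
  intro l hx
  exact key l.length l rfl hx

/-! ### Greedy insertion of small items -/

theorem sum_lt_of_forall_lt {c : ℚ} : ∀ bins : List (List ℚ), bins ≠ [] →
    (∀ B ∈ bins, c < B.sum) → (bins.length : ℚ) * c < (bins.map List.sum).sum := by
  intro bins
  induction bins with
  | nil => intro h; exact absurd rfl h
  | cons B bs ih =>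
    intro _ h
    by_cases hbs : bs = []
    · subst hbs
      have := h B (by simp)
      simpa using this
    · have h1 := ih hbs (fun B' hB' => h B' (by simp [hB']))
      have h2 := h B (by simp)
      simp only [List.length_cons, List.map_cons, List.sum_cons]
      push_cast
      linarith

/-- If the items of `a` are packed into `m + 1` bins, the total size of `a` and `x` is at most
`m`, and `m * x ≤ 1`, then `x` still fits into one of the bins. -/
theorem canPack_insert {m : ℕ} {a : List ℚ} {x : ℚ} (h : CanPack a (m + 1))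
    (hsum : a.sum + x ≤ m) (hxm : (m : ℚ) * x ≤ 1) : CanPack (x :: a) (m + 1) := by
  obtain ⟨bins, hlen, hbins, hperm⟩ := h
  have hne : bins ≠ [] := by
    intro h0; rw [h0] at hlen; simp at hlen
  have hex : ∃ B ∈ bins, B.sum + x ≤ 1 := by
    by_contra hcon
    have hall : ∀ B ∈ bins, 1 - x < B.sum := by
      intro B hB
      by_contra hB'
      exact hcon ⟨B, hB, by linarith⟩
    have h1 := sum_lt_of_forall_lt bins hne hall
    have h2 : (bins.map List.sum).sum = a.sum := by
      rw [← List.sum_flatten]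
      exact hperm.sum_eq
    rw [h2, hlen] at h1
    push_cast at h1
    nlinarith
  obtain ⟨B, hB, hBx⟩ := hex
  obtain ⟨l₁, l₂, rfl⟩ := List.append_of_mem hB
  refine ⟨l₁ ++ (x :: B) :: l₂, ?_, ?_, ?_⟩
  · simpa using hlen
  · intro B' hB'
    rcases List.mem_append.1 hB' with h' | h'
    · exact hbins B' (by simp [h'])
    · rcases List.mem_cons.1 h' with h' | h'
      · rw [h']; simp; linarith
      · exact hbins B' (by simp [h'])
  · have e1 : (l₁ ++ (x :: B) :: l₂).flatten = l₁.flatten ++ x :: (B ++ l₂.flatten) := by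
      simp
    have e2 : (l₁ ++ B :: l₂).flatten = l₁.flatten ++ (B ++ l₂.flatten) := by
      simp
    rw [e1]
    rw [e2] at hperm
    exact (List.perm_middle).trans (hperm.cons x)

/-- Greedy insertion of a list of small items. -/
theorem canPack_insert_list {m : ℕ} : ∀ (S L : List ℚ), CanPack L (m + 1) →
    (∀ x ∈ S, 0 ≤ x ∧ (m : ℚ) * x ≤ 1) → (S ++ L).sum ≤ m → CanPack (S ++ L) (m + 1) := by
  intro S
  induction S with
  | nil => intro L h _ _; simpa using h
  | cons x S ih =>
    intro L h hS hsum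
    have hx := hS x (by simp)
    have hsum' : (S ++ L).sum + x ≤ m := by
      simp only [List.cons_append, List.sum_cons] at hsum
      linarith
    have h1 : CanPack (S ++ L) (m + 1) :=
      ih L h (fun y hy => hS y (by simp [hy])) (by linarith)
    exact canPack_insert h1 hsum' hx.2


/-! ### Weak duality for the configuration LP -/

theorem lpFeasible_exists {a : List ℚ} (ha : ∀ x ∈ a, x ≤ 1) : ∃ z, LPFeasible a z := by
  classical
  refine ⟨a.toFinset.toList.map fun σ => ((fun τ => if τ = σ then 1 else 0), (a.count σ : ℝ)),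
    ?_, ?_⟩
  · intro p hp
    obtain ⟨σ, hσ, rfl⟩ := List.mem_map.1 hp
    have hσa : σ ∈ a := by simpa using hσ
    refine ⟨⟨?_, ?_⟩, by positivity⟩
    · intro τ hτ
      have : τ ≠ σ := fun h => hτ (h ▸ hσa)
      simp [this]
    · have h1 : ∑ τ ∈ a.toFinset, τ * (((if τ = σ then 1 else 0 : ℕ)) : ℚ) = σ := by
        rw [Finset.sum_eq_single σ]
        · simp
        · intro τ _ hne; simp [hne]
        · intro h; exact absurd (by simpa using hσa) h
      show ∑ τ ∈ a.toFinset, τ * (((if τ = σ then 1 else 0 : ℕ)) : ℚ) ≤ 1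
      rw [h1]; exact ha σ hσa
  · intro σ hσ
    rw [List.map_map]
    have h1 : ((a.toFinset.toList.map ((fun p : (ℚ → ℕ) × ℝ => (p.1 σ : ℝ) * p.2) ∘
        fun σ' => ((fun τ => if τ = σ' then 1 else 0), (a.count σ' : ℝ)))).sum
        = ∑ σ' ∈ a.toFinset, (((if σ = σ' then 1 else 0 : ℕ)) : ℝ) * (a.count σ' : ℝ)) := by
      exact Finset.sum_map_toList a.toFinset _
    rw [h1, Finset.sum_eq_single σ]
    · simp
    · intro τ _ hne
      have : ¬ σ = τ := fun h => hne h.symm
      simp [this]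
    · intro h; exact absurd (by simpa using hσ) h

theorem dual_le_of_feasible {a : List ℚ} (u : ℚ → ℝ) (hu0 : ∀ σ ∈ a, 0 ≤ u σ)
    (hu : ∀ c, IsConfig a c → ∑ σ ∈ a.toFinset, u σ * (c σ : ℝ) ≤ 1)
    {z : List ((ℚ → ℕ) × ℝ)} (hz : LPFeasible a z) :
    (a.map u).sum ≤ (z.map Prod.snd).sum := by
  have h1 : (a.map u).sum = ∑ σ ∈ a.toFinset, (a.count σ : ℝ) * u σ := by
    rw [Finset.sum_list_map_count]
    simp [nsmul_eq_mul]
  have h2 : ∑ σ ∈ a.toFinset, (a.count σ : ℝ) * u σ
      ≤ ∑ σ ∈ a.toFinset, (z.map fun p => (p.1 σ : ℝ) * p.2).sum * u σ := by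
    apply Finset.sum_le_sum
    intro σ hσ
    have hσa : σ ∈ a := by simpa using hσ
    exact mul_le_mul_of_nonneg_right (hz.2 σ hσa) (hu0 σ hσa)
  have h3 : ∀ z' : List ((ℚ → ℕ) × ℝ), (∀ p ∈ z', IsConfig a p.1 ∧ 0 ≤ p.2) →
      ∑ σ ∈ a.toFinset, (z'.map fun p => (p.1 σ : ℝ) * p.2).sum * u σ
        ≤ (z'.map Prod.snd).sum := by
    intro z'
    induction z' with
    | nil => intro _; simp
    | cons p z' ih =>
      intro hp
      have hp1 := hp p (by simp)
      have ih' := ih (fun q hq => hp q (by simp [hq]))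
      simp only [List.map_cons, List.sum_cons]
      have e : ∑ σ ∈ a.toFinset,
          ((p.1 σ : ℝ) * p.2 + (z'.map fun p => (p.1 σ : ℝ) * p.2).sum) * u σ
          = p.2 * ∑ σ ∈ a.toFinset, u σ * (p.1 σ : ℝ)
            + ∑ σ ∈ a.toFinset, (z'.map fun p => (p.1 σ : ℝ) * p.2).sum * u σ := by
        rw [Finset.mul_sum, ← Finset.sum_add_distrib]
        apply Finset.sum_congr rfl
        intro σ _; ring
      rw [e]
      have h4 := hu p.1 hp1.1
      nlinarith [hp1.2]
  rw [h1]
  exact h2.trans (h3 z hz.1)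

/-- Weak duality: a weight function on sizes that gives every configuration weight at most one
is a lower bound for the LP value. -/
theorem dual_le_lpValue {a : List ℚ} (ha : ∀ x ∈ a, x ≤ 1) (u : ℚ → ℝ)
    (hu0 : ∀ σ ∈ a, 0 ≤ u σ)
    (hu : ∀ c, IsConfig a c → ∑ σ ∈ a.toFinset, u σ * (c σ : ℝ) ≤ 1) :
    (a.map u).sum ≤ lpValue a := by
  unfold lpValue
  apply le_csInf
  · obtain ⟨z, hz⟩ := lpFeasible_exists ha
    exact ⟨_, z, hz, rfl⟩
  · rintro v ⟨z, hz, rfl⟩
    exact dual_le_of_feasible u hu0 hu hz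

/-- The total size is a lower bound for the LP value. -/
theorem sum_le_lpValue {a : List ℚ} (ha : ∀ x ∈ a, 0 < x ∧ x ≤ 1) :
    ((a.sum : ℚ) : ℝ) ≤ lpValue a := by
  have h := dual_le_lpValue (a := a) (fun x hx => (ha x hx).2) (fun σ => (σ : ℝ))
    (fun σ hσ => by exact_mod_cast (ha σ hσ).1.le)
    (fun c hc => by
      have := hc.2
      have e : ∑ σ ∈ a.toFinset, (σ : ℝ) * (c σ : ℝ)
          = ((∑ σ ∈ a.toFinset, σ * (c σ : ℚ) : ℚ) : ℝ) := by push_cast; rfl
      rw [e]; exact_mod_cast this)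
  have e : (a.map fun σ : ℚ => (σ : ℝ)).sum = ((a.sum : ℚ) : ℝ) := by
    induction a with
    | nil => simp
    | cons x a ih =>
      simp only [List.map_cons, List.sum_cons]
      push_cast
      rw [ih (fun y hy => ha y (by simp [hy]))
        (by
          apply dual_le_lpValue (fun y hy => (ha y (by simp [hy])).2)
          · intro σ hσ; exact_mod_cast (ha σ (by simp [hσ])).1.le
          · intro c hc
            have := hc.2
            have e : ∑ σ ∈ a.toFinset, (σ : ℝ) * (c σ : ℝ)
                = ((∑ σ ∈ a.toFinset, σ * (c σ : ℚ) : ℚ) : ℝ) := by push_cast; rfl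
            rw [e]; exact_mod_cast this)]
  rw [e] at h
  exact h


/-! ### Counting large items in a configuration -/

/-- In a configuration at most `k` items (with multiplicity) exceed `t`, if `k + 1` times `t` is at least `1`. -/
theorem config_count_le {a : List ℚ} {c : ℚ → ℕ} (hc : IsConfig a c) (ha : ∀ x ∈ a, 0 ≤ x)
    (t : ℚ) (k : ℕ) (hk : 1 ≤ ((k : ℚ) + 1) * t) :
    ∑ σ ∈ a.toFinset.filter (fun σ => t < σ), c σ ≤ k := by
  by_contra hcon
  have hN : k + 1 ≤ ∑ σ ∈ a.toFinset.filter (fun σ => t < σ), c σ := by omega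
  have h1 : ∑ σ ∈ a.toFinset.filter (fun σ => t < σ), σ * (c σ : ℚ)
      ≤ ∑ σ ∈ a.toFinset, σ * (c σ : ℚ) := by
    apply Finset.sum_le_sum_of_subset_of_nonneg (Finset.filter_subset _ _)
    intro σ hσ _
    have : 0 ≤ σ := ha σ (by simpa using hσ)
    positivity
  have hpos : ∃ σ ∈ a.toFinset.filter (fun σ => t < σ), 0 < c σ := by
    by_contra h
    have : ∑ σ ∈ a.toFinset.filter (fun σ => t < σ), c σ = 0 := by
      apply Finset.sum_eq_zero
      intro σ hσ
      by_contra h'
      exact h ⟨σ, hσ, Nat.pos_of_ne_zero h'⟩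
    omega
  have h2 : ∑ σ ∈ a.toFinset.filter (fun σ => t < σ), t * (c σ : ℚ)
      < ∑ σ ∈ a.toFinset.filter (fun σ => t < σ), σ * (c σ : ℚ) := by
    apply Finset.sum_lt_sum
    · intro σ hσ
      have : t < σ := (Finset.mem_filter.1 hσ).2
      have hc0 : (0 : ℚ) ≤ c σ := by positivity
      nlinarith
    · obtain ⟨σ, hσ, hcσ⟩ := hpos
      refine ⟨σ, hσ, ?_⟩
      have : t < σ := (Finset.mem_filter.1 hσ).2
      have hc0 : (0 : ℚ) < c σ := by exact_mod_cast hcσ
      nlinarith
  have h3 : ∑ σ ∈ a.toFinset.filter (fun σ => t < σ), t * (c σ : ℚ)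
      = t * ((∑ σ ∈ a.toFinset.filter (fun σ => t < σ), c σ : ℕ) : ℚ) := by
    rw [Nat.cast_sum, Finset.mul_sum]
  have h4 : ((k : ℚ) + 1) ≤ ((∑ σ ∈ a.toFinset.filter (fun σ => t < σ), c σ : ℕ) : ℚ) := by
    exact_mod_cast hN
  have hk0 : (0 : ℚ) ≤ k := by positivity
  have ht : 0 < t := by
    by_contra h
    have : t ≤ 0 := not_lt.1 h
    nlinarith
  have h5 := hc.2
  nlinarith

/-- Two different sizes that both occur in a configuration fit together. -/
theorem config_pair {a : List ℚ} {c : ℚ → ℕ} (hc : IsConfig a c) (ha : ∀ x ∈ a, 0 ≤ x)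
    {σ τ : ℚ} (hσ : σ ∈ a) (hτ : τ ∈ a) (hne : σ ≠ τ) (h1 : 0 < c σ) (h2 : 0 < c τ) :
    σ + τ ≤ 1 := by
  have hsub : ({σ, τ} : Finset ℚ) ⊆ a.toFinset := by
    intro x hx
    rcases Finset.mem_insert.1 hx with rfl | hx
    · simpa using hσ
    · rw [Finset.mem_singleton.1 hx]; simpa using hτ
  have h3 : ∑ x ∈ ({σ, τ} : Finset ℚ), x * (c x : ℚ) ≤ ∑ x ∈ a.toFinset, x * (c x : ℚ) := by
    apply Finset.sum_le_sum_of_subset_of_nonneg hsub
    intro x hx _
    have : 0 ≤ x := ha x (by simpa using hx)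
    positivity
  rw [Finset.sum_pair hne] at h3
  have h4 := hc.2
  have hσ0 := ha σ hσ
  have hτ0 := ha τ hτ
  have h5 : (1 : ℚ) ≤ c σ := by exact_mod_cast h1
  have h6 : (1 : ℚ) ≤ c τ := by exact_mod_cast h2
  nlinarith

theorem sum_map_ite (p : ℚ → Prop) [DecidablePred p] (w : ℝ) : ∀ a : List ℚ,
    (a.map fun σ => if p σ then w else 0).sum = w * ((a.filter fun σ => p σ).length : ℝ) := by
  intro a
  induction a with
  | nil => simp
  | cons x a ih =>
    by_cases h : p x
    · simp [h, ih]; ring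
    · simp [h, ih]

/-- The weight function with value `α` on sizes above one half and `β` on sizes in
the interval from one third (exclusive) to one half (inclusive). -/
noncomputable def wt (α β : ℝ) (σ : ℚ) : ℝ :=
  (if (1 : ℚ) / 2 < σ then α else 0) + (if (1 : ℚ) / 3 < σ ∧ ¬ (1 : ℚ) / 2 < σ then β else 0)

theorem sum_map_wt (α β : ℝ) (a : List ℚ) :
    (a.map (wt α β)).sum = α * ((a.filter fun σ => (1 : ℚ) / 2 < σ).length : ℝ)
      + β * ((a.filter fun σ => (1 : ℚ) / 3 < σ ∧ ¬ (1 : ℚ) / 2 < σ).length : ℝ) := by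
  have e : a.map (wt α β) = a.map (fun σ => (if (1 : ℚ) / 2 < σ then α else 0)
      + (if (1 : ℚ) / 3 < σ ∧ ¬ (1 : ℚ) / 2 < σ then β else 0)) := rfl
  rw [e, List.sum_map_add, sum_map_ite, sum_map_ite]

theorem config_wt {a : List ℚ} {c : ℚ → ℕ} (α β : ℝ) :
    ∑ σ ∈ a.toFinset, wt α β σ * (c σ : ℝ)
      = α * ((∑ σ ∈ a.toFinset.filter (fun σ => (1 : ℚ) / 2 < σ), c σ : ℕ) : ℝ)
        + β * ((∑ σ ∈ a.toFinset.filter (fun σ => (1 : ℚ) / 3 < σ ∧ ¬ (1 : ℚ) / 2 < σ),
            c σ : ℕ) : ℝ) := by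
  push_cast
  rw [Finset.mul_sum, Finset.mul_sum, Finset.sum_filter, Finset.sum_filter,
    ← Finset.sum_add_distrib]
  apply Finset.sum_congr rfl
  intro σ _
  unfold wt
  split_ifs <;> ring

theorem config_split {a : List ℚ} {c : ℚ → ℕ} :
    ∑ σ ∈ a.toFinset.filter (fun σ => (1 : ℚ) / 3 < σ), c σ
      = ∑ σ ∈ a.toFinset.filter (fun σ => (1 : ℚ) / 2 < σ), c σ
        + ∑ σ ∈ a.toFinset.filter (fun σ => (1 : ℚ) / 3 < σ ∧ ¬ (1 : ℚ) / 2 < σ), c σ := by
  rw [Finset.sum_filter, Finset.sum_filter, Finset.sum_filter, ← Finset.sum_add_distrib]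
  apply Finset.sum_congr rfl
  intro σ _
  by_cases h2 : (1 : ℚ) / 2 < σ
  · have h3 : (1 : ℚ) / 3 < σ := by linarith
    rw [if_pos h3, if_pos h2, if_neg (fun h => h.2 h2)]; omega
  · by_cases h3 : (1 : ℚ) / 3 < σ
    · rw [if_pos h3, if_neg h2, if_pos ⟨h3, h2⟩]; omega
    · rw [if_neg h3, if_neg h2, if_neg (fun h => h3 h.1)]; omega

/-- The number of items above one half is at most the LP value. -/
theorem big_le_lpValue {a : List ℚ} (ha : ∀ x ∈ a, 0 < x ∧ x ≤ 1) :
    ((a.filter fun σ => (1 : ℚ) / 2 < σ).length : ℝ) ≤ lpValue a := by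
  have h := dual_le_lpValue (a := a) (fun x hx => (ha x hx).2) (wt 1 0)
    (fun σ _ => by unfold wt; split_ifs <;> norm_num)
    (fun c hc => by
      rw [config_wt]
      have h1 := config_count_le hc (fun x hx => (ha x hx).1.le) (1 / 2) 1 (by norm_num)
      have h1' : ((∑ σ ∈ a.toFinset.filter (fun σ => (1 : ℚ) / 2 < σ), c σ : ℕ) : ℝ) ≤ 1 := by
        exact_mod_cast h1
      linarith)
  rw [sum_map_wt] at h
  linarith

/-- Half the number of items above one third is at most the LP value. -/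
theorem large_le_lpValue {a : List ℚ} (ha : ∀ x ∈ a, 0 < x ∧ x ≤ 1) :
    (((a.filter fun σ => (1 : ℚ) / 2 < σ).length : ℝ)
      + ((a.filter fun σ => (1 : ℚ) / 3 < σ ∧ ¬ (1 : ℚ) / 2 < σ).length : ℝ)) / 2
      ≤ lpValue a := by
  have h := dual_le_lpValue (a := a) (fun x hx => (ha x hx).2) (wt (1 / 2) (1 / 2))
    (fun σ _ => by unfold wt; split_ifs <;> norm_num)
    (fun c hc => by
      rw [config_wt]
      have h1 := config_count_le hc (fun x hx => (ha x hx).1.le) (1 / 3) 2 (by norm_num)
      rw [config_split] at h1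
      have h1' : ((∑ σ ∈ a.toFinset.filter (fun σ => (1 : ℚ) / 2 < σ), c σ : ℕ) : ℝ)
          + ((∑ σ ∈ a.toFinset.filter (fun σ => (1 : ℚ) / 3 < σ ∧ ¬ (1 : ℚ) / 2 < σ),
            c σ : ℕ) : ℝ) ≤ 2 := by
        exact_mod_cast h1
      linarith)
  rw [sum_map_wt] at h
  linarith

/-- If no item above one half fits together with an item of the interval from one third (exclusive) to one half (inclusive), then the number of
items above one half plus half the number of items in the interval from one third (exclusive) to one half (inclusive) is at most the LP value. -/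
theorem mixed_le_lpValue {a : List ℚ} (ha : ∀ x ∈ a, 0 < x ∧ x ≤ 1)
    (H : ∀ b ∈ a, ∀ m ∈ a, (1 : ℚ) / 2 < b → (1 : ℚ) / 3 < m → ¬ (1 : ℚ) / 2 < m → 1 < b + m) :
    ((a.filter fun σ => (1 : ℚ) / 2 < σ).length : ℝ)
      + ((a.filter fun σ => (1 : ℚ) / 3 < σ ∧ ¬ (1 : ℚ) / 2 < σ).length : ℝ) / 2
      ≤ lpValue a := by
  have h := dual_le_lpValue (a := a) (fun x hx => (ha x hx).2) (wt 1 (1 / 2))
    (fun σ _ => by unfold wt; split_ifs <;> norm_num)
    (fun c hc => by
      rw [config_wt]
      have h1 := config_count_le hc (fun x hx => (ha x hx).1.le) (1 / 3) 2 (by norm_num)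
      rw [config_split] at h1
      have h2 := config_count_le hc (fun x hx => (ha x hx).1.le) (1 / 2) 1 (by norm_num)
      have h3 : ∑ σ ∈ a.toFinset.filter (fun σ => (1 : ℚ) / 2 < σ), c σ = 0 ∨
          ∑ σ ∈ a.toFinset.filter (fun σ => (1 : ℚ) / 3 < σ ∧ ¬ (1 : ℚ) / 2 < σ), c σ = 0 := by
        by_contra hcon
        have hb : ∑ σ ∈ a.toFinset.filter (fun σ => (1 : ℚ) / 2 < σ), c σ ≠ 0 :=
          fun h => hcon (Or.inl h)
        have hm : ∑ σ ∈ a.toFinset.filter (fun σ => (1 : ℚ) / 3 < σ ∧ ¬ (1 : ℚ) / 2 < σ), c σ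
            ≠ 0 := fun h => hcon (Or.inr h)
        obtain ⟨b, hbm, hb0⟩ := Finset.exists_ne_zero_of_sum_ne_zero hb
        obtain ⟨m, hmm, hm0⟩ := Finset.exists_ne_zero_of_sum_ne_zero hm
        rw [Finset.mem_filter] at hbm hmm
        have hba : b ∈ a := by simpa using hbm.1
        have hma : m ∈ a := by simpa using hmm.1
        have hne : b ≠ m := by
          intro h; rw [h] at hbm; exact hmm.2.2 hbm.2
        have h5 := config_pair hc (fun x hx => (ha x hx).1.le) hba hma hne
          (Nat.pos_of_ne_zero hb0) (Nat.pos_of_ne_zero hm0)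
        have h6 := H b hba m hma hbm.2 hmm.2.1 hmm.2.2
        linarith
      rcases h3 with h3 | h3
      · rw [h3] at h1 ⊢
        have h1' : ((∑ σ ∈ a.toFinset.filter (fun σ => (1 : ℚ) / 3 < σ ∧ ¬ (1 : ℚ) / 2 < σ),
            c σ : ℕ) : ℝ) ≤ 2 := by
          have : ∑ σ ∈ a.toFinset.filter (fun σ => (1 : ℚ) / 3 < σ ∧ ¬ (1 : ℚ) / 2 < σ), c σ
              ≤ 2 := by omega
          exact_mod_cast this
        rw [Nat.cast_zero]
        linarith
      · rw [h3]
        have h2' : ((∑ σ ∈ a.toFinset.filter (fun σ => (1 : ℚ) / 2 < σ), c σ : ℕ) : ℝ) ≤ 1 := by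
          exact_mod_cast h2
        rw [Nat.cast_zero]
        linarith)
  rw [sum_map_wt] at h
  linarith

/-! ### Splitting an instance by two thresholds -/

theorem split_perm (p q : ℚ → Prop) [DecidablePred p] [DecidablePred q]
    (hqp : ∀ x, q x → p x) : ∀ a : List ℚ,
    (a.filter (fun σ => ¬ p σ) ++ (a.filter (fun σ => p σ ∧ ¬ q σ)
      ++ a.filter (fun σ => q σ))).Perm a := by
  intro a
  induction a with
  | nil => simp
  | cons x a ih =>
    by_cases hp : p x
    · by_cases hq : q x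
      · simp only [List.filter_cons, hp, hq, not_true_eq_false, decide_false, decide_true,
          and_false, Bool.false_eq_true, if_false, if_true]
        rw [← List.append_assoc]
        refine List.perm_middle.trans ?_
        rw [List.append_assoc]
        exact ih.cons x
      · simp only [List.filter_cons, hp, hq, not_true_eq_false, not_false_eq_true, decide_false,
          decide_true, and_true, Bool.false_eq_true, if_false, if_true]
        rw [List.cons_append]
        exact List.perm_middle.trans (ih.cons x)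
    · have hq : ¬ q x := fun h => hp (hqp x h)
      simp only [List.filter_cons, hp, hq, not_false_eq_true, decide_false, decide_true,
        false_and, Bool.false_eq_true, if_false, if_true]
      rw [List.cons_append]
      exact ih.cons x

/-! ### The modified round-up inequality for instances with LP value at most three -/

theorem opt_le_of_lp_le_three {a : List ℚ} (ha : ∀ x ∈ a, 0 < x ∧ x ≤ 1)
    (hlp : lpValue a ≤ 3) : (opt a : ℤ) ≤ ⌈lpValue a⌉ + 1 := by
  have hsum := sum_le_lpValue ha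
  have hsum0 : (0 : ℚ) ≤ a.sum := List.sum_nonneg (fun x hx => (ha x hx).1.le)
  have hlp0 : 0 ≤ lpValue a := le_trans (by exact_mod_cast hsum0) hsum
  have hk0 : 0 ≤ ⌈lpValue a⌉ := Int.ceil_nonneg hlp0
  have hk3 : ⌈lpValue a⌉ ≤ 3 := Int.ceil_le.2 (by exact_mod_cast hlp)
  have hkle : lpValue a ≤ ⌈lpValue a⌉ := Int.le_ceil _
  obtain ⟨k, hk⟩ : ∃ k : ℤ, k = ⌈lpValue a⌉ := ⟨_, rfl⟩
  rw [← hk] at hk0 hk3 hkle ⊢
  suffices h : ∃ n : ℕ, (n : ℤ) ≤ k + 1 ∧ CanPack a n by
    obtain ⟨n, hn, hp⟩ := h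
    have := opt_le_of_canPack hp
    omega
  have hperm := split_perm (fun σ : ℚ => (1 : ℚ) / 3 < σ) (fun σ : ℚ => (1 : ℚ) / 2 < σ)
    (fun x hx => by linarith) a
  have hB := big_le_lpValue ha
  have hBM := large_le_lpValue ha
  have hBs : ∀ x ∈ a.filter (fun σ => (1 : ℚ) / 2 < σ), x ≤ 1 := by
    intro x hx
    exact (ha x (List.mem_of_mem_filter hx)).2
  have hMs : ∀ x ∈ a.filter (fun σ => (1 : ℚ) / 3 < σ ∧ ¬ (1 : ℚ) / 2 < σ), x ≤ 1 / 2 := by
    intro x hx
    have := (List.mem_filter.1 hx).2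
    simp only [decide_eq_true_eq] at this
    exact not_lt.1 this.2
  have hSs : ∀ x ∈ a.filter (fun σ => ¬ (1 : ℚ) / 3 < σ), 0 ≤ x ∧ x ≤ 1 / 3 := by
    intro x hx
    have := (List.mem_filter.1 hx).2
    simp only [decide_eq_true_eq] at this
    exact ⟨(ha x (List.mem_of_mem_filter hx)).1.le, not_lt.1 this⟩
  have hMs0 : ∀ x ∈ a.filter (fun σ => (1 : ℚ) / 3 < σ ∧ ¬ (1 : ℚ) / 2 < σ), 0 ≤ x := by
    intro x hx
    exact (ha x (List.mem_of_mem_filter hx)).1.le
  have hsumeq := hperm.sum_eq
  by_cases hk1 : k ≤ 1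
  · -- total size at most one
    refine ⟨1, by omega, canPack_single_bin ?_⟩
    have h1 : (k : ℝ) ≤ 1 := by exact_mod_cast hk1
    have : ((a.sum : ℚ) : ℝ) ≤ 1 := by linarith
    exact_mod_cast this
  by_cases hk2 : k = 2
  · -- items above one half get their own bins, the rest is inserted greedily
    subst hk2
    refine ⟨3, by norm_num, ?_⟩
    have hB2 : (a.filter (fun σ => (1 : ℚ) / 2 < σ)).length ≤ 2 := by
      have : ((a.filter (fun σ => (1 : ℚ) / 2 < σ)).length : ℝ) ≤ 2 := by
        push_cast at hkle; linarith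
      exact_mod_cast this
    have c1 : CanPack (a.filter (fun σ => (1 : ℚ) / 2 < σ)) (2 + 1) :=
      canPack_mono' (canPack_singletons hBs) (by omega)
    rw [← List.append_assoc] at hperm hsumeq
    have c2 := canPack_insert_list (m := 2)
      (a.filter (fun σ => ¬ (1 : ℚ) / 3 < σ) ++ a.filter (fun σ => (1 : ℚ) / 3 < σ ∧ ¬ (1 : ℚ) / 2 < σ))
      (a.filter (fun σ => (1 : ℚ) / 2 < σ)) c1
      (by
        intro x hx
        rcases List.mem_append.1 hx with hx | hx
        · have := hSs x hx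
          refine ⟨this.1, ?_⟩
          push_cast; linarith
        · have := hMs x hx
          refine ⟨hMs0 x hx, ?_⟩
          push_cast; linarith)
      (by
        rw [hsumeq]
        have : ((a.sum : ℚ) : ℝ) ≤ 2 := by push_cast at hkle; linarith
        exact_mod_cast this)
    exact canPack_perm c2 hperm
  · -- k = 3
    have hk3' : k = 3 := by omega
    subst hk3'
    refine ⟨4, by norm_num, ?_⟩
    have hB3 : (a.filter (fun σ => (1 : ℚ) / 2 < σ)).length ≤ 3 := by
      have : ((a.filter (fun σ => (1 : ℚ) / 2 < σ)).length : ℝ) ≤ 3 := by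
        push_cast at hkle; linarith
      exact_mod_cast this
    have hBM6 : (a.filter (fun σ => (1 : ℚ) / 2 < σ)).length
        + (a.filter (fun σ => (1 : ℚ) / 3 < σ ∧ ¬ (1 : ℚ) / 2 < σ)).length ≤ 6 := by
      have : (((a.filter (fun σ => (1 : ℚ) / 2 < σ)).length
          + (a.filter (fun σ => (1 : ℚ) / 3 < σ ∧ ¬ (1 : ℚ) / 2 < σ)).length : ℕ) : ℝ) ≤ 6 := by
        push_cast at hkle ⊢; linarith
      exact_mod_cast this
    have c1 : CanPack (a.filter (fun σ => (1 : ℚ) / 3 < σ ∧ ¬ (1 : ℚ) / 2 < σ)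
        ++ a.filter (fun σ => (1 : ℚ) / 2 < σ)) (3 + 1) := by
      by_cases hcnt : ((a.filter (fun σ => (1 : ℚ) / 3 < σ ∧ ¬ (1 : ℚ) / 2 < σ)).length + 1) / 2
          + (a.filter (fun σ => (1 : ℚ) / 2 < σ)).length ≤ 4
      · exact canPack_mono' (canPack_append (canPack_pairs _ hMs) (canPack_singletons hBs)) hcnt
      · have hB3' : (a.filter (fun σ => (1 : ℚ) / 2 < σ)).length = 3 := by omega
        have hM3' : (a.filter (fun σ => (1 : ℚ) / 3 < σ ∧ ¬ (1 : ℚ) / 2 < σ)).length = 3 := by
          omega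
        have hex : ∃ b ∈ a, ∃ m ∈ a, (1 : ℚ) / 2 < b ∧ (1 : ℚ) / 3 < m ∧ ¬ (1 : ℚ) / 2 < m
            ∧ b + m ≤ 1 := by
          by_contra hcon
          have H : ∀ b ∈ a, ∀ m ∈ a, (1 : ℚ) / 2 < b → (1 : ℚ) / 3 < m → ¬ (1 : ℚ) / 2 < m →
              1 < b + m := by
            intro b hb m hm h1 h2 h3
            by_contra h4
            exact hcon ⟨b, hb, m, hm, h1, h2, h3, not_lt.1 h4⟩
          have h5 := mixed_le_lpValue ha H
          rw [hB3', hM3'] at h5
          push_cast at hkle h5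
          linarith
        obtain ⟨b, hb, m, hm, h1, h2, h3, h4⟩ := hex
        have hbB : b ∈ a.filter (fun σ => (1 : ℚ) / 2 < σ) :=
          List.mem_filter.2 ⟨hb, decide_eq_true h1⟩
        have hmM : m ∈ a.filter (fun σ => (1 : ℚ) / 3 < σ ∧ ¬ (1 : ℚ) / 2 < σ) :=
          List.mem_filter.2 ⟨hm, decide_eq_true ⟨h2, h3⟩⟩
        have p1 := List.perm_cons_erase hbB
        have p2 := List.perm_cons_erase hmM
        have l1 : ((a.filter (fun σ => (1 : ℚ) / 2 < σ)).erase b).length = 2 := by
          rw [List.length_erase_of_mem hbB, hB3']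
        have l2 : ((a.filter (fun σ => (1 : ℚ) / 3 < σ ∧ ¬ (1 : ℚ) / 2 < σ)).erase m).length
            = 2 := by
          rw [List.length_erase_of_mem hmM, hM3']
        have d1 : CanPack [b, m] 1 := canPack_single_bin (by simp; linarith)
        have d2 : CanPack ((a.filter (fun σ => (1 : ℚ) / 2 < σ)).erase b) 2 := by
          have := canPack_singletons (a := (a.filter (fun σ => (1 : ℚ) / 2 < σ)).erase b)
            (fun x hx => hBs x (List.mem_of_mem_erase hx))
          rwa [l1] at this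
        have d3 : CanPack ((a.filter (fun σ => (1 : ℚ) / 3 < σ ∧ ¬ (1 : ℚ) / 2 < σ)).erase m)
            1 := by
          have := canPack_pairs ((a.filter (fun σ => (1 : ℚ) / 3 < σ ∧ ¬ (1 : ℚ) / 2 < σ)).erase m)
            (fun x hx => hMs x (List.mem_of_mem_erase hx))
          rwa [l2] at this
        have d4 := canPack_append d1 (canPack_append d2 d3)
        refine canPack_perm d4 ?_
        refine List.Perm.symm ((p2.append p1).trans ?_)
        refine List.perm_middle.trans ?_
        simp only [List.cons_append, List.nil_append]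
        exact ((List.perm_append_comm).cons m).cons b
    have c2 := canPack_insert_list (m := 3) (a.filter (fun σ => ¬ (1 : ℚ) / 3 < σ))
      (a.filter (fun σ => (1 : ℚ) / 3 < σ ∧ ¬ (1 : ℚ) / 2 < σ)
        ++ a.filter (fun σ => (1 : ℚ) / 2 < σ)) c1
      (by
        intro x hx
        have := hSs x hx
        refine ⟨this.1, ?_⟩
        push_cast; linarith)
      (by
        rw [hsumeq]
        have : ((a.sum : ℚ) : ℝ) ≤ 3 := by push_cast at hkle; linarith
        exact_mod_cast this)
    exact canPack_perm c2 hperm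

/-- The modified integer round-up inequality `OPT ≤ ⌈LP⌉ + 1` holds for every instance whose
LP value is at most `3`, and for every instance that can be packed into `5` bins. -/
theorem mirup_small {a : List ℚ} (ha : ∀ x ∈ a, 0 < x ∧ x ≤ 1)
    (h : lpValue a ≤ 3 ∨ opt a ≤ 5) : (opt a : ℤ) ≤ ⌈lpValue a⌉ + 1 := by
  by_cases hlp : lpValue a ≤ 3
  · exact opt_le_of_lp_le_three ha hlp
  · rcases h with h | h
    · exact absurd h hlp
    · have h3 : (3 : ℝ) < lpValue a := not_le.1 hlp
      have h4 : (3 : ℤ) < ⌈lpValue a⌉ := Int.lt_ceil.2 (by exact_mod_cast h3)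
      have h5 : (opt a : ℤ) ≤ 5 := by exact_mod_cast h
      omega

end Vale.Agent.Lib.Helper9.BinPack
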